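import Vale.Agent.P338.R2.H778.Tr.Srch4

/-!
# P338, stage 3: search for the parameters of the batch transform: the program
-/

namespace Vale.Agent.P338.R2.H778.Tr

open _root_.P338.H778.Tr
open Function (update)
open Vale.Agent.P338.R2.H898 Vale.Agent.P338.R2.H784 Vale.Agent.P338.R2.H778.Fp
open Vale.Agent.P338.R2.H784.Bp
open Vale.Agent.P338.R2.H778 (bits)
open Rg

set_option linter.unusedSectionVars false

/-- The files. -/
inductive SF
  | b | D | Q | om | nu | iv | m | mum | s (i : Fin 16)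
  deriving DecidableEq

/-- The files of the registers. -/
def fileOf : Rg → SF
  | .b => .b
  | .D => .D
  | .Q => .Q
  | .cap => .s 0
  | .q => .s 1
  | .om => .s 2
  | .m => .s 3
  | .nu => .s 4
  | .iv => .s 5
  | .mum => .s 6
  | .f => .s 7
  | .g => .s 8
  | .t1 => .s 9
  | .t2 => .s 10
  | .t3 => .s 11
  | .P => .s 12
  | .x => .s 13
  | .y => .s 14
  | .z => .s 15

theorem fileOf_inj : Function.Injective fileOf := by
  intro a a' h
  cases a <;> cases a' <;> first | rfl | (simp [fileOf] at h)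

/-- The words. -/
inductive Wd
  | om | nu | iv | m | mum
  deriving DecidableEq

/-- The files of the words. -/
def Wd.file : Wd → SF
  | .om => .om
  | .nu => .nu
  | .iv => .iv
  | .m => .m
  | .mum => .mum

/-- The registers of the words. -/
def Wd.reg : Wd → Rg
  | .om => .om
  | .nu => .nu
  | .iv => .iv
  | .m => .m
  | .mum => .mum

theorem Wd.file_inj : Function.Injective Wd.file := by
  intro a b h
  cases a <;> cases b <;> first | rfl | (simp [Wd.file] at h)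

theorem Wd.file_ne (k : Wd) (r : Rg) : fileOf r ≠ k.file := by
  cases k <;> cases r <;> simp [fileOf, Wd.file]

/-- Files before. -/
def sI {α : Type} (u : α) (b D : ℕ) : SF → Zip α
  | .b => ⟨[], List.replicate b u⟩
  | .D => ⟨[], List.replicate D u⟩
  | _ => ⟨[], []⟩

/-- Files after. -/
def sO {α : Type} (u : α) (bit : Bool → α) (b D q om nu iv : ℕ) : SF → Zip α
  | .b => ⟨[], List.replicate b u⟩
  | .D => ⟨[], List.replicate D u⟩
  | .Q => ⟨[], List.replicate (q - 1) u⟩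
  | .om => ⟨[], (bits b om).map bit⟩
  | .nu => ⟨[], (bits b nu).map bit⟩
  | .iv => ⟨[], (bits b iv).map bit⟩
  | .m => ⟨[], (bits b (q ^ 4)).map bit⟩
  | .mum => ⟨[], (bits b (2 ^ b / q ^ 4 + 1)).map bit⟩
  | .s _ => ⟨[], []⟩

/-- All commands of the search. -/
def srchC {α : Type} : Cmd Rg α := sq [srchQ, srchI, mkMu]

/-- The registers to be cleared. -/
def wipeL : List Rg := [.cap, .q, .om, .m, .nu, .iv, .mum, .f, .g, .t1, .t2, .t3, .P, .x, .y, .z]

variable {M F α : Type} [DecidableEq F] {d u : α} {j : SF → F}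

/-- Writing one word. -/
def emitK (j : SF → F) (u : α) (bit : Bool → α) (k : Wd) : Prog M F α :=
  .seq ((emitW k.reg (bit false) (bit true)).prog u (fun r => j (fileOf r)) (j k.file))
    (op (j k.file) .rew)

/-- **The program.** -/
def srch (j : SF → F) (u : α) (bit : Bool → α) : Prog M F α :=
  .seq (pow2 (j .b) (j (.s 0)) (j (.s 13)) u)
    (.seq (srchC.prog u (fun r => j (fileOf r)) (j .om))
    (.seq (emitK j u bit .om) (.seq (emitK j u bit .nu) (.seq (emitK j u bit .iv)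
    (.seq (emitK j u bit .m) (.seq (emitK j u bit .mum)
    (clrs (fun r => j (fileOf r)) wipeL)))))))

/-- The state of the store: registers `v`, words `w`. -/
structure SS (u : α) (j : SF → F) (v : Rg → ℕ) (w : Wd → List α) (s0 s : Store M F α) : Prop where
  rl : RL u (fun r => j (fileOf r)) v s
  wd : ∀ k : Wd, s.z (j k.file) = ⟨[], w k⟩
  mem : s.m = s0.m
  frm : ∀ f, (∀ x, f ≠ j x) → s.z f = s0.z f

section

variable (hj : Function.Injective j)
include hj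

theorem comp_inj : Function.Injective (fun r => j (fileOf r)) := fun _ _ h => fileOf_inj (hj h)

theorem SF.cases' (f : SF) : (∃ r, f = fileOf r) ∨ ∃ k : Wd, f = k.file := by
  cases f with
  | b => exact Or.inl ⟨.b, rfl⟩
  | D => exact Or.inl ⟨.D, rfl⟩
  | Q => exact Or.inl ⟨.Q, rfl⟩
  | om => exact Or.inr ⟨.om, rfl⟩
  | nu => exact Or.inr ⟨.nu, rfl⟩
  | iv => exact Or.inr ⟨.iv, rfl⟩
  | m => exact Or.inr ⟨.m, rfl⟩
  | mum => exact Or.inr ⟨.mum, rfl⟩
  | s i =>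
    refine Or.inl ?_
    fin_cases i
    · exact ⟨.cap, rfl⟩
    · exact ⟨.q, rfl⟩
    · exact ⟨.om, rfl⟩
    · exact ⟨.m, rfl⟩
    · exact ⟨.nu, rfl⟩
    · exact ⟨.iv, rfl⟩
    · exact ⟨.mum, rfl⟩
    · exact ⟨.f, rfl⟩
    · exact ⟨.g, rfl⟩
    · exact ⟨.t1, rfl⟩
    · exact ⟨.t2, rfl⟩
    · exact ⟨.t3, rfl⟩
    · exact ⟨.P, rfl⟩
    · exact ⟨.x, rfl⟩
    · exact ⟨.y, rfl⟩
    · exact ⟨.z, rfl⟩

/-- A mute command. -/
theorem tri_mute {p : Cmd Rg α} (hp : p.wf) (hm : p.mute = true) {v : Rg → ℕ}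
    {w : Wd → List α} {s0 s : Store M F α} (h : SS u j v w s0 s) {B : ℕ} (hB : ∀ a, v a ≤ B)
    (k : Wd) (hk : w k = []) :
    Tri d (p.prog u (fun r => j (fileOf r)) (j k.file)) s (p.cb B)
      (fun s' => SS u j (p.den (v, [])).1 w s0 s') := by
  refine (Cmd.run (comp_inj hj) (fun r => hj.ne (k.file_ne r)) p hp (x := (v, [])) hB s
    ⟨h.rl, by rw [h.wd, hk]; rfl⟩).post ?_
  rintro s' ⟨⟨h1, h2⟩, h3, h4⟩
  rw [Cmd.den_snd p hm] at h2
  refine ⟨h1, fun k' => ?_, h3.trans h.mem, fun f hf => ?_⟩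
  · by_cases hkk : k' = k
    · subst hkk
      rw [h2, hk]; rfl
    · rw [h4 _ (fun r hr => (k'.file_ne r) (hj hr).symm)
        (fun hr => hkk (Wd.file_inj (hj hr))), h.wd]
  · rw [h4 f (fun r => hf _) (hf _), h.frm f hf]

theorem tri_emitK {bit : Bool → α} {v : Rg → ℕ} {w : Wd → List α}
    {s0 s : Store M F α}
    (h : SS u j v w s0 s) {B : ℕ} (hB : ∀ a, v a ≤ B) (k : Wd) (hk : w k = [])
    (hc : v cap = 2 ^ v b) (hv : v k.reg < 2 ^ v b) :
    Tri d (emitK j u bit k) s ((emitW k.reg (bit false) (bit true)).cb B + 1)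
      (fun s' => ∃ v', SS u j v' (update w k ((bits (v b) (v k.reg)).map bit)) s0 s' ∧
        (∀ a, v' a ≤ B) ∧ ∀ r, r ≠ x → r ≠ P → r ≠ t1 → r ≠ y → r ≠ z → v' r = v r) := by
  have hwf : (emitW k.reg (bit false) (bit true)).wf := by
    cases k <;> simp [emitW, sq, Cmd.wf, Cmd.wr, Wd.reg]
  refine Tri.seq (Cmd.run (comp_inj hj) (fun r => hj.ne (k.file_ne r)) _ hwf (x := (v, [])) hB s
    ⟨h.rl, by rw [h.wd, hk]; rfl⟩) ?_
  rintro s1 ⟨⟨h1, h2⟩, h3, h4⟩
  have h5 := emitW_den (v := k.reg) bit (v, []) hc hv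
  rw [h5, List.nil_append] at h2
  refine (tri_op (j k.file) .rew s1).post ?_
  rintro s2 ⟨h6, k6⟩
  refine ⟨((emitW k.reg (bit false) (bit true)).den (v, [])).1, ⟨fun r => ?_, fun k' => ?_, ?_, ?_⟩,
    Cmd.den_le (x := (v, [])) _ hB, ?_⟩
  · exact k6.len (by simp only [List.mem_singleton]; exact hj.ne (k.file_ne r)) (h1 r)
  · by_cases hkk : k' = k
    · subst hkk
      rw [h6, h2, Function.update_self]
      simp [Op.app]
    · rw [Function.update_of_ne hkk, k6.z (by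
        simp only [List.mem_singleton]; exact fun hr => hkk (Wd.file_inj (hj hr))),
        h4 _ (fun r hr => (k'.file_ne r) (hj hr).symm)
        (fun hr => hkk (Wd.file_inj (hj hr))), h.wd]
  · exact k6.1.trans (h3.trans h.mem)
  · intro f hf
    rw [k6.z (by simp only [List.mem_singleton]; exact hf _), h4 f (fun r => hf _) (hf _),
      h.frm f hf]
  · intro r r1 r2 r3 r4 r5
    exact Cmd.den_of_not_mem _ (by simp [emitW, sq, Cmd.wr, r1, r2, r3, r4, r5]) _

theorem tri_rp {p : Prog M F α} {v v' : Rg → ℕ} {c : ℕ}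
    (hp : RP d u (fun r => j (fileOf r)) p v c v') {w : Wd → List α} {s0 s : Store M F α}
    (h : SS u j v w s0 s) : Tri d p s c (fun s' => SS u j v' w s0 s') := by
  refine (hp s h.rl).post ?_
  rintro s' ⟨h1, h2, h3⟩
  refine ⟨h1, fun k => ?_, h2.trans h.mem, fun f hf => ?_⟩
  · rw [h3 _ (fun r hr => (k.file_ne r) (hj hr).symm), h.wd]
  · rw [h3 f (fun r => hf _), h.frm f hf]

end

/-! ### Values -/

/-- The registers at the beginning. -/
def vS (b D : ℕ) : Rg → ℕ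
  | .b => b
  | .D => D
  | _ => 0

theorem vS_fix {α : Type} {p : Cmd Rg α} {r : Rg} (h : r ∉ p.wr) (x : (Rg → ℕ) × List α) :
    (p.den x).1 r = x.1 r := Cmd.den_of_not_mem p h x

/-- The values found by the search. -/
theorem srchC_den {α : Type} {W : ℕ} (hW : 1024 ≤ W) (v : Rg → ℕ) (hb : v b = bB W)
    (hD : v D = dB W) (hc : v cap = 2 ^ bB W) (hs : (4 * dB W) ^ 4 < 2 ^ bB W) :
    ∃ q' om' nu' iv', Prm W q' om' nu' iv' ∧ q' ^ 4 < 2 ^ bB W ∧
      ((srchC : Cmd Rg α).den (v, [])).1 b = bB W ∧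
      ((srchC : Cmd Rg α).den (v, [])).1 D = dB W ∧
      ((srchC : Cmd Rg α).den (v, [])).1 cap = 2 ^ bB W ∧
      ((srchC : Cmd Rg α).den (v, [])).1 Q = q' - 1 ∧
      ((srchC : Cmd Rg α).den (v, [])).1 om = om' ∧
      ((srchC : Cmd Rg α).den (v, [])).1 nu = nu' ∧
      ((srchC : Cmd Rg α).den (v, [])).1 iv = iv' ∧
      ((srchC : Cmd Rg α).den (v, [])).1 m = q' ^ 4 ∧
      ((srchC : Cmd Rg α).den (v, [])).1 mum = 2 ^ bB W / q' ^ 4 + 1 := by
  have hD1 : 1 ≤ dB W := Nat.succ_pos _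
  obtain ⟨q', w, hr, h1, h2, h3, h4, h5, h6⟩ := srchQ_den (α := α) (v, []) (by simp only; omega)
    (by simp only; rw [hD, hc]; exact hs)
  simp only [hD] at h1 h2
  have hlt : q' ^ 4 < 2 ^ bB W := lt_of_le_of_lt (Nat.pow_le_pow_left h2 4) hs
  have e : (srchC : Cmd Rg α).den (v, []) = (mkMu : Cmd Rg α).den ((srchI : Cmd Rg α).den
      ((srchQ : Cmd Rg α).den (v, []))) := rfl
  rw [e]
  have f1 : ((srchQ : Cmd Rg α).den (v, [])).1 b = bB W := by
    rw [vS_fix (by simp [srchQ, bodyQ, find, test, test1, test2, chk, chk', mkM, sq, Cmd.wr])]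
    exact hb
  have f2 : ((srchQ : Cmd Rg α).den (v, [])).1 D = dB W := by
    rw [vS_fix (by simp [srchQ, bodyQ, find, test, test1, test2, chk, chk', mkM, sq, Cmd.wr])]
    exact hD
  have f3 : ((srchQ : Cmd Rg α).den (v, [])).1 cap = 2 ^ bB W := by
    rw [vS_fix (by simp [srchQ, bodyQ, find, test, test1, test2, chk, chk', mkM, sq, Cmd.wr])]
    exact hc
  generalize (srchQ : Cmd Rg α).den (v, []) = s1 at h3 h4 h5 h6 f1 f2 f3 ⊢
  obtain ⟨g1, g2, g3, g4⟩ := srchI_den s1 hr h4 h5 h6 (by rw [f3]; exact hlt)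
  have g5 : ∀ r, r ∉ (srchI : Cmd Rg α).wr → ((srchI : Cmd Rg α).den s1).1 r = s1.1 r :=
    fun r h => vS_fix h s1
  generalize (srchI : Cmd Rg α).den s1 = s2 at g1 g2 g3 g4 g5 ⊢
  have k1 : s2.1 m = q' ^ 4 := by rw [g5 _ (by simp [srchI, find, testI, sq, Cmd.wr]), h5]
  have k2 : s2.1 cap = 2 ^ bB W := by rw [g5 _ (by simp [srchI, find, testI, sq, Cmd.wr]), f3]
  have hm1 : 1 < q' ^ 4 := Nat.one_lt_pow (by norm_num) hr.prime.one_lt
  have k3 := mkMu_den s2 (by rw [k1]; exact hm1) (by rw [k1, k2]; exact hlt)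
  have k4 : ∀ r, r ∉ (mkMu : Cmd Rg α).wr → ((mkMu : Cmd Rg α).den s2).1 r = s2.1 r :=
    fun r h => vS_fix h s2
  refine ⟨q', w, s2.1 nu, s2.1 iv, ⟨hW, hr.prime, h1, h2, hr.lt, hr.pow, hr.ne, g1, g2, g3, g4⟩,
    hlt, ?_, ?_, ?_, ?_, ?_, ?_, ?_, ?_, ?_⟩
  · rw [k4 _ (by simp [mkMu, sq, Cmd.wr]), g5 _ (by simp [srchI, find, testI, sq, Cmd.wr]), f1]
  · rw [k4 _ (by simp [mkMu, sq, Cmd.wr]), g5 _ (by simp [srchI, find, testI, sq, Cmd.wr]), f2]
  · rw [k4 _ (by simp [mkMu, sq, Cmd.wr]), g5 _ (by simp [srchI, find, testI, sq, Cmd.wr]), f3]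
  · rw [k4 _ (by simp [mkMu, sq, Cmd.wr]), g5 _ (by simp [srchI, find, testI, sq, Cmd.wr]), h4]
  · rw [k4 _ (by simp [mkMu, sq, Cmd.wr]), g5 _ (by simp [srchI, find, testI, sq, Cmd.wr]), h6]
  · rw [k4 _ (by simp [mkMu, sq, Cmd.wr])]
  · rw [k4 _ (by simp [mkMu, sq, Cmd.wr])]
  · rw [k4 _ (by simp [mkMu, sq, Cmd.wr]), k1]
  · rw [k3, k1, k2]

/-- A bound of the number of steps. -/
def csr (B : ℕ) : ℕ := (8 * B + 8 * B + 5) + ((srchC : Cmd Rg Bool).cb B +
  (((emitW om false true : Cmd Rg Bool).cb B + 1) + (((emitW nu false true : Cmd Rg Bool).cb B + 1) +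
  (((emitW iv false true : Cmd Rg Bool).cb B + 1) + (((emitW m false true : Cmd Rg Bool).cb B + 1) +
  (((emitW mum false true : Cmd Rg Bool).cb B + 1) + 33))))))

theorem poly_add {f g : ℕ → ℕ} (hf : ∃ K n : ℕ, ∀ B, f B ≤ K * (B + 1) ^ n)
    (hg : ∃ K n : ℕ, ∀ B, g B ≤ K * (B + 1) ^ n) :
    ∃ K n : ℕ, ∀ B, f B + g B ≤ K * (B + 1) ^ n := by
  obtain ⟨K, n, h⟩ := hf
  obtain ⟨K', n', h'⟩ := hg
  refine ⟨K + K', n + n', fun B => ?_⟩
  have key : ∀ (i j : ℕ), i ≤ j → (B + 1) ^ i ≤ (B + 1) ^ j := fun i j h =>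
    Nat.pow_le_pow_right (Nat.succ_pos B) h
  have h1 := (h B).trans (Nat.mul_le_mul_left K (key n (n + n') (by omega)))
  have h2 := (h' B).trans (Nat.mul_le_mul_left K' (key n' (n + n') (by omega)))
  rw [add_mul]
  omega

theorem poly_const (c : ℕ) : ∃ K n : ℕ, ∀ B : ℕ, c ≤ K * (B + 1) ^ n := ⟨c, 0, fun B => by simp⟩

theorem csr_poly : ∃ K n : ℕ, ∀ B, csr B ≤ K * (B + 1) ^ n := by
  unfold csr
  refine poly_add ⟨21, 1, fun B => by rw [pow_one]; omega⟩ (poly_add (Cmd.cb_poly _)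
    (poly_add (poly_add (Cmd.cb_poly _) (poly_const 1)) (poly_add (poly_add (Cmd.cb_poly _)
    (poly_const 1)) (poly_add (poly_add (Cmd.cb_poly _) (poly_const 1)) (poly_add
    (poly_add (Cmd.cb_poly _) (poly_const 1)) (poly_add (poly_add (Cmd.cb_poly _)
    (poly_const 1)) (poly_const 33)))))))

/-- Powers are `O (2 ^ W)`. -/
theorem pow_le_two_pow (N W : ℕ) : W ^ N ≤ (N + 1) ^ N * 2 ^ W := by
  have h1 : W ≤ (N + 1) * 2 ^ (W / (N + 1)) := by
    have h2 : W / (N + 1) + 1 ≤ 2 ^ (W / (N + 1)) := Nat.lt_two_pow_self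
    have h3 := Nat.lt_mul_div_succ W (Nat.succ_pos N)
    calc W ≤ (N + 1) * (W / (N + 1) + 1) := h3.le
      _ ≤ _ := Nat.mul_le_mul_left _ h2
  calc W ^ N ≤ ((N + 1) * 2 ^ (W / (N + 1))) ^ N := Nat.pow_le_pow_left h1 N
    _ = (N + 1) ^ N * 2 ^ (W / (N + 1) * N) := by rw [mul_pow, ← pow_mul]
    _ ≤ (N + 1) ^ N * 2 ^ W := by
      refine Nat.mul_le_mul_left _ (Nat.pow_le_pow_right (by norm_num) ?_)
      calc W / (N + 1) * N ≤ W / (N + 1) * (N + 1) := Nat.mul_le_mul_left _ (Nat.le_succ N)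
        _ ≤ W := Nat.div_mul_le_self _ _

theorem two_pow_bB_le {W : ℕ} (hW : W ≠ 0) : 2 ^ bB W ≤ (2 * W) ^ 20 := by
  have h1 : 2 ^ gB W ≤ 2 * W := by
    unfold gB
    rw [pow_succ, mul_comm]
    exact Nat.mul_le_mul_left 2 (Nat.pow_log_le_self 2 hW)
  have h2 : (2 : ℕ) ^ bB W = (2 ^ gB W) ^ 20 := by
    unfold bB
    rw [mul_comm 20, pow_mul]
  rw [h2]
  exact Nat.pow_le_pow_left h1 20

theorem exists_Csrch : ∃ C : ℕ, ∀ W : ℕ, 1024 ≤ W → csr (2 ^ bB W) ≤ C * 4 ^ W := by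
  obtain ⟨K, n, h⟩ := csr_poly
  refine ⟨K * (2 ^ (21 * n) * (20 * n + 1) ^ (20 * n)), fun W hW => ?_⟩
  have h1 := two_pow_bB_le (W := W) (by omega)
  have h2 : 2 ^ bB W + 1 ≤ 2 ^ 21 * W ^ 20 := by
    have h3 : 1 ≤ W ^ 20 := Nat.one_le_pow _ _ (by omega)
    rw [mul_pow] at h1
    have h4 : (2 : ℕ) ^ 21 * W ^ 20 = 2 ^ 20 * W ^ 20 + 2 ^ 20 * W ^ 20 := by ring
    have h5 : 1 ≤ 2 ^ 20 * W ^ 20 := Nat.one_le_iff_ne_zero.2 (by positivity)
    omega
  calc csr (2 ^ bB W) ≤ K * (2 ^ bB W + 1) ^ n := h _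
    _ ≤ K * (2 ^ 21 * W ^ 20) ^ n := Nat.mul_le_mul_left _ (Nat.pow_le_pow_left h2 n)
    _ = K * (2 ^ (21 * n) * W ^ (20 * n)) := by rw [mul_pow, ← pow_mul, ← pow_mul]
    _ ≤ K * (2 ^ (21 * n) * ((20 * n + 1) ^ (20 * n) * 2 ^ W)) :=
        Nat.mul_le_mul_left _ (Nat.mul_le_mul_left _ (pow_le_two_pow _ _))
    _ = K * (2 ^ (21 * n) * (20 * n + 1) ^ (20 * n)) * 2 ^ W := by ring
    _ ≤ _ := Nat.mul_le_mul_left _ (Nat.pow_le_pow_left (by norm_num) W)

/-- The constant of the cost. -/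
noncomputable def Csrch : ℕ := exists_Csrch.choose

theorem Csrch_spec {W : ℕ} (hW : 1024 ≤ W) : csr (2 ^ bB W) ≤ Csrch * 4 ^ W :=
  exists_Csrch.choose_spec W hW

theorem four_dB_pow_lt {W : ℕ} (hW : 1024 ≤ W) : (4 * dB W) ^ 4 < 2 ^ bB W := by
  have hg : 11 ≤ gB W := by
    unfold gB
    have : 10 ≤ Nat.log 2 W := Nat.le_log_of_pow_le (by norm_num) (by omega)
    omega
  have h1 : W < 2 ^ gB W := Nat.lt_pow_succ_log_self (by norm_num) W
  have h2 : dB W ≤ W := by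
    unfold dB
    have : W / gB W ≤ W / 2 := Nat.div_le_div_left (by omega) (by norm_num)
    omega
  calc (4 * dB W) ^ 4 ≤ (4 * W) ^ 4 := Nat.pow_le_pow_left (by omega) 4
    _ < (2 ^ (gB W + 2)) ^ 4 := Nat.pow_lt_pow_left (by rw [pow_add]; omega) (by norm_num)
    _ = 2 ^ ((gB W + 2) * 4) := by rw [← pow_mul]
    _ ≤ 2 ^ bB W := Nat.pow_le_pow_right (by norm_num) (by unfold bB; omega)

/-- The words of the search. -/
def wS {α : Type} (bit : Bool → α) (b q om nu iv : ℕ) : Wd → List α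
  | .om => (bits b om).map bit
  | .nu => (bits b nu).map bit
  | .iv => (bits b iv).map bit
  | .m => (bits b (q ^ 4)).map bit
  | .mum => (bits b (2 ^ b / q ^ 4 + 1)).map bit

theorem srchC_wf {α : Type} : (srchC : Cmd Rg α).wf := by
  simp [srchC, srchQ, srchI, bodyQ, find, test, test1, test2, chk, chk', mkM, testI, mkMu, sq,
    Cmd.wf, Cmd.wr]

theorem cb_emitW {α : Type} (v : Rg) (bit : Bool → α) (B : ℕ) :
    (emitW v (bit false) (bit true)).cb B = (emitW v false true : Cmd Rg Bool).cb B := rfl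

theorem cb_srchC {α : Type} (B : ℕ) :
    (srchC : Cmd Rg α).cb B = (srchC : Cmd Rg Bool).cb B := rfl

theorem cost_le {α : Type} {W : ℕ} (hb : bB W ≤ 2 ^ bB W) (bit : Bool → α) :
    (8 * 2 ^ bB W + 8 * bB W + 5) +
      ((srchC : Cmd Rg α).cb (2 ^ bB W) + (((emitW Rg.om (bit false) (bit true)).cb (2 ^ bB W) + 1) +
      (((emitW Rg.nu (bit false) (bit true)).cb (2 ^ bB W) + 1) +
      (((emitW Rg.iv (bit false) (bit true)).cb (2 ^ bB W) + 1) +
      (((emitW Rg.m (bit false) (bit true)).cb (2 ^ bB W) + 1) +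
      (((emitW Rg.mum (bit false) (bit true)).cb (2 ^ bB W) + 1) + (2 * wipeL.length + 1)))))))
    ≤ csr (2 ^ bB W) := by
  unfold csr
  rw [cb_emitW, cb_emitW, cb_emitW, cb_emitW, cb_emitW, cb_srchC,
    show 2 * wipeL.length + 1 = 33 from rfl]
  exact Nat.add_le_add_right (by omega) _

/-- The second part of the program. -/
def wordsP (j : SF → F) (u : α) (bit : Bool → α) : Prog M F α :=
  .seq (emitK j u bit .om) (.seq (emitK j u bit .nu) (.seq (emitK j u bit .iv)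
    (.seq (emitK j u bit .m) (.seq (emitK j u bit .mum)
    (clrs (fun r => j (fileOf r)) wipeL)))))

theorem tri_wordsP (hj : Function.Injective j) {bit : Bool → α} {β q om' nu' iv' B : ℕ}
    {v2 : Rg → ℕ} {s0 s2 : Store M F α} (h2 : SS u j v2 (fun _ => []) s0 s2)
    (hB2 : ∀ a, v2 a ≤ B) (e1 : v2 b = β) (e3 : v2 cap = 2 ^ β) (e5 : v2 om = om')
    (e6 : v2 nu = nu') (e7 : v2 iv = iv') (e8 : v2 Rg.m = q ^ 4)
    (e9 : v2 mum = 2 ^ β / q ^ 4 + 1) (l5 : om' < 2 ^ β) (l6 : nu' < 2 ^ β) (l7 : iv' < 2 ^ β)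
    (l8 : q ^ 4 < 2 ^ β) (l9 : 2 ^ β / q ^ 4 + 1 < 2 ^ β) :
    Tri d (wordsP j u bit) s2 ((((emitW Rg.om (bit false) (bit true)).cb B + 1) +
      (((emitW Rg.nu (bit false) (bit true)).cb B + 1) +
      (((emitW Rg.iv (bit false) (bit true)).cb B + 1) +
      (((emitW Rg.m (bit false) (bit true)).cb B + 1) +
      (((emitW Rg.mum (bit false) (bit true)).cb B + 1) + (2 * wipeL.length + 1))))))) (fun s' =>
      ∃ v' : Rg → ℕ, SS u j (fun r => if r ∈ wipeL then 0 else v' r) (wS bit β q om' nu' iv')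
        s0 s' ∧ ∀ r, r ≠ x → r ≠ P → r ≠ t1 → r ≠ y → r ≠ Rg.z →
        v' r = v2 r) := by
  refine Tri.seq (tri_emitK hj (bit := bit) h2 hB2 .om rfl (by rw [e3, e1])
    (by show v2 Rg.om < 2 ^ v2 b; rw [e5, e1]; exact l5)) ?_
  rintro s3 ⟨v3, h3, hB3, a3⟩
  refine Tri.seq (tri_emitK hj (bit := bit) h3 hB3 .nu (by simp [update])
    (by rw [a3 _ (by decide) (by decide) (by decide) (by decide) (by decide),
      a3 _ (by decide) (by decide) (by decide) (by decide) (by decide), e3, e1])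
    (by show v3 Rg.nu < 2 ^ v3 b
        rw [a3 _ (by decide) (by decide) (by decide) (by decide) (by decide),
        a3 _ (by decide) (by decide) (by decide) (by decide) (by decide), e6, e1]
        exact l6)) ?_
  rintro s4 ⟨v4, h4, hB4, g4⟩
  have a4 : ∀ r, r ≠ x → r ≠ P → r ≠ t1 → r ≠ y → r ≠ Rg.z → v4 r = v2 r :=
    fun r k1 k2 k3 k4 k5 => (g4 r k1 k2 k3 k4 k5).trans (a3 r k1 k2 k3 k4 k5)
  refine Tri.seq (tri_emitK hj (bit := bit) h4 hB4 .iv (by simp [update])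
    (by rw [a4 _ (by decide) (by decide) (by decide) (by decide) (by decide),
      a4 _ (by decide) (by decide) (by decide) (by decide) (by decide), e3, e1])
    (by show v4 Rg.iv < 2 ^ v4 b
        rw [a4 _ (by decide) (by decide) (by decide) (by decide) (by decide),
        a4 _ (by decide) (by decide) (by decide) (by decide) (by decide), e7, e1]
        exact l7)) ?_
  rintro s5 ⟨v5, h5, hB5, g5⟩
  have a5 : ∀ r, r ≠ x → r ≠ P → r ≠ t1 → r ≠ y → r ≠ Rg.z → v5 r = v2 r :=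
    fun r k1 k2 k3 k4 k5 => (g5 r k1 k2 k3 k4 k5).trans (a4 r k1 k2 k3 k4 k5)
  refine Tri.seq (tri_emitK hj (bit := bit) h5 hB5 .m (by simp [update])
    (by rw [a5 _ (by decide) (by decide) (by decide) (by decide) (by decide),
      a5 _ (by decide) (by decide) (by decide) (by decide) (by decide), e3, e1])
    (by show v5 Rg.m < 2 ^ v5 b
        rw [a5 _ (by decide) (by decide) (by decide) (by decide) (by decide),
        a5 _ (by decide) (by decide) (by decide) (by decide) (by decide), e8, e1]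
        exact l8)) ?_
  rintro s6 ⟨v6, h6, hB6, g6⟩
  have a6 : ∀ r, r ≠ x → r ≠ P → r ≠ t1 → r ≠ y → r ≠ Rg.z → v6 r = v2 r :=
    fun r k1 k2 k3 k4 k5 => (g6 r k1 k2 k3 k4 k5).trans (a5 r k1 k2 k3 k4 k5)
  refine Tri.seq (tri_emitK hj (bit := bit) h6 hB6 .mum (by simp [update])
    (by rw [a6 _ (by decide) (by decide) (by decide) (by decide) (by decide),
      a6 _ (by decide) (by decide) (by decide) (by decide) (by decide), e3, e1])
    (by show v6 Rg.mum < 2 ^ v6 b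
        rw [a6 _ (by decide) (by decide) (by decide) (by decide) (by decide),
        a6 _ (by decide) (by decide) (by decide) (by decide) (by decide), e9, e1]
        exact l9)) ?_
  rintro s7 ⟨v7, h7, hB7, g7⟩
  have a7 : ∀ r, r ≠ x → r ≠ P → r ≠ t1 → r ≠ y → r ≠ Rg.z → v7 r = v2 r :=
    fun r k1 k2 k3 k4 k5 => (g7 r k1 k2 k3 k4 k5).trans (a6 r k1 k2 k3 k4 k5)
  refine (tri_rp hj (rp_clrs (comp_inj hj) wipeL v7) h7).post ?_
  intro s8 h8
  refine ⟨v7, ?_, a7⟩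
  have hw : wS bit β q om' nu' iv' = update (update (update (update (update (fun _ => [])
      Wd.om ((bits (v2 b) (v2 Wd.om.reg)).map bit)) Wd.nu ((bits (v3 b) (v3 Wd.nu.reg)).map bit))
      Wd.iv ((bits (v4 b) (v4 Wd.iv.reg)).map bit)) Wd.m ((bits (v5 b) (v5 Wd.m.reg)).map bit))
      Wd.mum ((bits (v6 b) (v6 Wd.mum.reg)).map bit) := by
    funext k
    cases k
    · simp only [wS, update, reduceCtorEq, dite_false, dite_true, Wd.reg]
      rw [e1, e5]
    · simp only [wS, update, reduceCtorEq, dite_false, dite_true, Wd.reg]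
      rw [a3 _ (by decide) (by decide) (by decide) (by decide) (by decide),
        a3 _ (by decide) (by decide) (by decide) (by decide) (by decide), e1, e6]
    · simp only [wS, update, reduceCtorEq, dite_false, dite_true, Wd.reg]
      rw [a4 _ (by decide) (by decide) (by decide) (by decide) (by decide),
        a4 _ (by decide) (by decide) (by decide) (by decide) (by decide), e1, e7]
    · simp only [wS, update, reduceCtorEq, dite_false, dite_true, Wd.reg]
      rw [a5 _ (by decide) (by decide) (by decide) (by decide) (by decide),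
        a5 _ (by decide) (by decide) (by decide) (by decide) (by decide), e1, e8]
    · simp only [wS, update, reduceCtorEq, dite_false, dite_true, Wd.reg]
      rw [a6 _ (by decide) (by decide) (by decide) (by decide) (by decide),
        a6 _ (by decide) (by decide) (by decide) (by decide) (by decide), e1, e9]
  rw [hw]
  exact h8

/-- The final store. -/
theorem store_eq (hj : Function.Injective j) {bit : Bool → α} {β D' q om' nu' iv' : ℕ}
    {v' : Rg → ℕ} {m : M} {z : F → Zip α} {s' : Store M F α}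
    (h2 : SS u j (fun r => if r ∈ wipeL then 0 else v' r) (wS bit β q om' nu' iv')
      (⟨m, z⟩ : Store M F α) s') (e1 : v' b = β) (e2 : v' D = D') (e4 : v' Q = q - 1) :
    s' = ⟨m, Function.extend j (sO u bit β D' q om' nu' iv') z⟩ := by
  rcases s' with ⟨m', z'⟩
  obtain ⟨k1, k2, k3, k4⟩ := h2
  simp only at k2 k3 k4
  subst k3
  congr 1
  funext f
  by_cases hf : ∃ x, j x = f
  · obtain ⟨x, rfl⟩ := hf
    rw [hj.extend_apply]
    rcases SF.cases' hj x with ⟨r, rfl⟩ | ⟨k, rfl⟩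
    · have h1 := k1 r
      simp only [Len] at h1
      rw [h1]
      cases r
      case b => simp [fileOf, sO, wipeL, e1]
      case D => simp [fileOf, sO, wipeL, e2]
      case Q => simp [fileOf, sO, wipeL, e4]
      all_goals simp [fileOf, sO, wipeL]
    · rw [k2 k]
      cases k <;> rfl
  · rw [Function.extend_apply' _ _ _ hf, k4 f (fun x hx => hf ⟨x, hx.symm⟩)]

theorem tri_srch (hj : Function.Injective j) {bit : Bool → α} {W q om' nu' iv' : ℕ}
    {v1 v2 : Rg → ℕ} {s0 : Store M F α} (hv1 : update (vS (bB W) (dB W)) cap (2 ^ bB W) = v1)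
    (hv2 : ((srchC : Cmd Rg α).den (v1, [])).1 = v2) (hv1B : ∀ a, v1 a ≤ 2 ^ bB W)
    (h0 : SS u j (vS (bB W) (dB W)) (fun _ => []) s0 s0)
    (hB2 : ∀ a, v2 a ≤ 2 ^ bB W) (e1 : v2 b = bB W) (e3 : v2 cap = 2 ^ bB W) (e5 : v2 om = om')
    (e6 : v2 nu = nu') (e7 : v2 iv = iv') (e8 : v2 Rg.m = q ^ 4)
    (e9 : v2 mum = 2 ^ bB W / q ^ 4 + 1) (l5 : om' < 2 ^ bB W) (l6 : nu' < 2 ^ bB W)
    (l7 : iv' < 2 ^ bB W) (l8 : q ^ 4 < 2 ^ bB W) (l9 : 2 ^ bB W / q ^ 4 + 1 < 2 ^ bB W) :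
    Tri d (srch j u bit) s0 ((8 * 2 ^ bB W + 8 * bB W + 5) +
      ((srchC : Cmd Rg α).cb (2 ^ bB W) + (((emitW Rg.om (bit false) (bit true)).cb (2 ^ bB W) + 1) +
      (((emitW Rg.nu (bit false) (bit true)).cb (2 ^ bB W) + 1) +
      (((emitW Rg.iv (bit false) (bit true)).cb (2 ^ bB W) + 1) +
      (((emitW Rg.m (bit false) (bit true)).cb (2 ^ bB W) + 1) +
      (((emitW Rg.mum (bit false) (bit true)).cb (2 ^ bB W) + 1) + (2 * wipeL.length + 1))))))))
      (fun s' => ∃ v' : Rg → ℕ, SS u j (fun r => if r ∈ wipeL then 0 else v' r)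
        (wS bit (bB W) q om' nu' iv') s0 s' ∧ ∀ r, r ≠ x → r ≠ P → r ≠ t1 → r ≠ y → r ≠ Rg.z →
        v' r = v2 r) := by
  refine Tri.seq (tri_rp (M := M) (d := d) hj (rp_pow' (comp_inj hj) (a := Rg.b) (b := Rg.cap)
      (t := Rg.x) (n := bB W) (by decide) (by decide) (by decide) rfl rfl) h0) ?_
  intro s1 h1
  rw [hv1] at h1
  refine Tri.seq (tri_mute (d := d) hj srchC_wf rfl h1 hv1B .om rfl) ?_
  intro s2 h2
  rw [hv2] at h2
  exact tri_wordsP (d := d) hj (bit := bit) h2 hB2 e1 e3 e5 e6 e7 e8 e9 l5 l6 l7 l8 l9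

/-- **The search.** -/
theorem run_srch (hj : Function.Injective j) {bit : Bool → α} {W : ℕ} (hW : 1024 ≤ W) {m : M}
    {z : F → Zip α} (hz : ∀ x, z (j x) = sI u (bB W) (dB W) x) :
    ∃ q om nu iv, Prm W q om nu iv ∧ Prog.Run d (srch j u bit) ⟨m, z⟩ (Csrch * 4 ^ W)
      ⟨m, Function.extend j (sO u bit (bB W) (dB W) q om nu iv) z⟩ := by
  have hbB : bB W ≤ 2 ^ bB W := Nat.lt_two_pow_self.le
  have hdB : dB W ≤ 2 ^ bB W := by
    have h1 := four_dB_pow_lt hW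
    have h2 : dB W ≤ (4 * dB W) ^ 4 :=
      (by omega : dB W ≤ 4 * dB W).trans (Nat.le_self_pow (by norm_num) _)
    omega
  obtain ⟨v1, hv1⟩ : ∃ v1, update (vS (bB W) (dB W)) cap (2 ^ bB W) = v1 := ⟨_, rfl⟩
  have hv1B : ∀ a, v1 a ≤ 2 ^ bB W := by
    intro a
    rw [← hv1]
    cases a <;> simp only [vS, update, reduceCtorEq, dite_false, dite_true, hbB, hdB,
      Nat.zero_le, le_refl]
  obtain ⟨q, om', nu', iv', hP, hq4, e1, e2, e3, e4, e5, e6, e7, e8, e9⟩ :=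
    srchC_den (α := α) hW v1 (by rw [← hv1]; simp [vS]) (by rw [← hv1]; simp [vS])
      (by rw [← hv1]; simp) (four_dB_pow_lt hW)
  have hB2 := Cmd.den_le (srchC : Cmd Rg α) (x := (v1, [])) hv1B
  obtain ⟨v2, hv2⟩ : ∃ v2, ((srchC : Cmd Rg α).den (v1, [])).1 = v2 := ⟨_, rfl⟩
  rw [hv2] at e1 e2 e3 e4 e5 e6 e7 e8 e9 hB2
  refine ⟨q, om', nu', iv', hP, ?_⟩
  have hm1 : 1 < q ^ 4 := Nat.one_lt_pow (by norm_num) hP.hq.one_lt
  have hmum : 2 ^ bB W / q ^ 4 + 1 < 2 ^ bB W := by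
    have h1 : 2 ^ bB W / q ^ 4 ≤ 2 ^ bB W / 2 := Nat.div_le_div_left (by omega) (by norm_num)
    have h2 : 4 ≤ 2 ^ bB W := by
      have : 2 ≤ bB W := by unfold bB gB; omega
      calc 4 = 2 ^ 2 := by norm_num
        _ ≤ _ := Nat.pow_le_pow_right (by norm_num) this
    omega
  have s0 : SS u j (vS (bB W) (dB W)) (fun _ => []) (⟨m, z⟩ : Store M F α) ⟨m, z⟩ := by
    refine ⟨fun r => ?_, fun k => ?_, rfl, fun _ _ => rfl⟩
    · show Len u 0 _ (z (j (fileOf r)))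
      rw [hz]
      cases r <;> rfl
    · show z (j k.file) = _
      rw [hz]
      cases k <;> rfl
  obtain ⟨s', h1, v', h2, h3⟩ := tri_srch (d := d) hj (bit := bit) hv1 hv2 hv1B s0 hB2 e1 e3 e5 e6
    e7 e8 e9 (hP.om_lt.trans hq4) (hP.nu_lt.trans hq4) (hP.iv_lt.trans hq4) hq4 hmum
  have e := store_eq (D' := dB W) hj h2
    ((h3 _ (by decide) (by decide) (by decide) (by decide) (by decide)).trans e1)
    ((h3 _ (by decide) (by decide) (by decide) (by decide) (by decide)).trans e2)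
    ((h3 _ (by decide) (by decide) (by decide) (by decide) (by decide)).trans e4)
  rw [← e]
  exact h1.mono ((cost_le hbB bit).trans (Csrch_spec hW))

end Vale.Agent.P338.R2.H778.Tr
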