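import Vale.Agent.P338.R2.H778.Fp.Rul

/-!
# P338, stage 3: a language of bounded unary computations with output

Registers are rulers.  No command increases the maximum of the registers, hence every program has
a cost bounded by a polynomial in the maximum of the registers at the beginning.
-/

namespace Vale.Agent.P338.R2.H778.Tr

open Vale.Agent.P338.R2.H898 Vale.Agent.P338.R2.H784 Vale.Agent.P338.R2.H778.Fp
open Function (update)

set_option linter.unusedSectionVars false

/-- Commands: registers `ρ`, output symbols `α`. -/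
inductive Cmd (ρ α : Type)
  /-- nothing -/
  | skip
  /-- `a := 0` -/
  | clr (a : ρ)
  /-- `a := a - 1` -/
  | dec (a : ρ)
  /-- `b := a` -/
  | cp (a b : ρ)
  /-- `c := a - b` (truncated) -/
  | sub (a b c : ρ)
  /-- `if a < b then a := a + 1` -/
  | inc (a b : ρ)
  /-- `b := (a + 1) / 2`, `c := a / 2` -/
  | half (a b c : ρ)
  /-- `c := a * b mod m` (`0` if `m = 0`) -/
  | mm (a b m c : ρ)
  /-- append a symbol to the output: `x` if `0 < a`, else `y` -/
  | emit (a : ρ) (x y : α)
  | seq (p q : Cmd ρ α)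
  /-- `if 0 < a then p else q` -/
  | ifp (a : ρ) (p q : Cmd ρ α)
  /-- `while 0 < t do (p; t := t - 1)`, where `p` does not change `t` -/
  | loop (t : ρ) (p : Cmd ρ α)

section den

variable {ρ α : Type} [DecidableEq ρ]

/-- The effect of a command on the registers and the output. -/
def Cmd.den : Cmd ρ α → (ρ → ℕ) × List α → (ρ → ℕ) × List α
  | .skip, x => x
  | .clr a, x => (update x.1 a 0, x.2)
  | .dec a, x => (update x.1 a (x.1 a - 1), x.2)
  | .cp a b, x => (update x.1 b (x.1 a), x.2)
  | .sub a b c, x => (update x.1 c (x.1 a - x.1 b), x.2)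
  | .inc a b, x => (update x.1 a (if x.1 a < x.1 b then x.1 a + 1 else x.1 a), x.2)
  | .half a b c, x => (update (update x.1 b ((x.1 a + 1) / 2)) c (x.1 a / 2), x.2)
  | .mm a b m c, x => (update x.1 c (if 0 < x.1 m then x.1 a * x.1 b % x.1 m else 0), x.2)
  | .emit a s t, x => (x.1, x.2 ++ [if 0 < x.1 a then s else t])
  | .seq p q, x => q.den (p.den x)
  | .ifp a p q, x => if 0 < x.1 a then p.den x else q.den x
  | .loop t p, x => (fun y => (update (p.den y).1 t (y.1 t - 1), (p.den y).2))^[x.1 t] x

/-- The registers that may change. -/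
def Cmd.wr : Cmd ρ α → List ρ
  | .skip => []
  | .clr a => [a]
  | .dec a => [a]
  | .cp _ b => [b]
  | .sub _ _ c => [c]
  | .inc a _ => [a]
  | .half _ b c => [b, c]
  | .mm _ _ _ c => [c]
  | .emit _ _ _ => []
  | .seq p q => p.wr ++ q.wr
  | .ifp _ p q => p.wr ++ q.wr
  | .loop t p => t :: p.wr

/-- Well-formed commands. -/
def Cmd.wf : Cmd ρ α → Prop
  | .skip => True
  | .clr _ => True
  | .dec _ => True
  | .cp a b => a ≠ b
  | .sub a b c => a ≠ b ∧ a ≠ c ∧ b ≠ c
  | .inc a b => a ≠ b
  | .half a b c => a ≠ b ∧ a ≠ c ∧ b ≠ c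
  | .mm a b m c => a ≠ b ∧ a ≠ m ∧ a ≠ c ∧ b ≠ m ∧ b ≠ c ∧ m ≠ c
  | .emit _ _ _ => True
  | .seq p q => p.wf ∧ q.wf
  | .ifp _ p q => p.wf ∧ q.wf
  | .loop t p => t ∉ p.wr ∧ p.wf

theorem Cmd.den_of_not_mem (p : Cmd ρ α) {a : ρ} (h : a ∉ p.wr) (x : (ρ → ℕ) × List α) :
    (p.den x).1 a = x.1 a := by
  induction p generalizing x with
  | skip => rfl
  | clr b => simp only [wr, List.mem_singleton] at h; simp [den, Function.update_of_ne h]
  | dec b => simp only [wr, List.mem_singleton] at h; simp [den, Function.update_of_ne h]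
  | cp b c => simp only [wr, List.mem_singleton] at h; simp [den, Function.update_of_ne h]
  | sub b c e => simp only [wr, List.mem_singleton] at h; simp [den, Function.update_of_ne h]
  | inc b c => simp only [wr, List.mem_singleton] at h; simp [den, Function.update_of_ne h]
  | half b c e =>
    simp only [wr, List.mem_cons, List.not_mem_nil, or_false, not_or] at h
    simp [den, Function.update_of_ne h.1, Function.update_of_ne h.2]
  | mm b c e g => simp only [wr, List.mem_singleton] at h; simp [den, Function.update_of_ne h]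
  | emit b s t => rfl
  | seq p q ihp ihq =>
    simp only [wr, List.mem_append, not_or] at h
    rw [den, ihq h.2, ihp h.1]
  | ifp b p q ihp ihq =>
    simp only [wr, List.mem_append, not_or] at h
    rw [den]
    split_ifs
    · exact ihp h.1 x
    · exact ihq h.2 x
  | loop t p ih =>
    simp only [wr, List.mem_cons, not_or] at h
    rw [den]
    generalize x.1 t = n
    induction n generalizing x with
    | zero => rfl
    | succ n ihn =>
      rw [Function.iterate_succ_apply, ihn]
      simp only [Function.update_of_ne h.1]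
      exact ih h.2 x

theorem Cmd.den_le (p : Cmd ρ α) {B : ℕ} {x : (ρ → ℕ) × List α} (hx : ∀ a, x.1 a ≤ B) :
    ∀ a, (p.den x).1 a ≤ B := by
  have hu : ∀ (v : ρ → ℕ) (a : ρ) (n : ℕ), (∀ a, v a ≤ B) → n ≤ B → ∀ b, update v a n b ≤ B := by
    intro v a n hv hn b
    by_cases hb : b = a
    · subst hb; rwa [Function.update_self]
    · rw [Function.update_of_ne hb]; exact hv b
  induction p generalizing x with
  | skip => exact hx
  | clr b => exact hu _ _ _ hx (Nat.zero_le _)
  | dec b => exact hu _ _ _ hx ((Nat.sub_le _ _).trans (hx b))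
  | cp b c => exact hu _ _ _ hx (hx b)
  | sub b c e => exact hu _ _ _ hx ((Nat.sub_le _ _).trans (hx b))
  | inc b c =>
    refine hu _ _ _ hx ?_
    split_ifs with h
    · exact (Nat.succ_le_of_lt h).trans (hx c)
    · exact hx b
  | half b c e =>
    have := hx b
    exact hu _ _ _ (hu _ _ _ hx (by omega)) (by omega)
  | mm b c e g =>
    refine hu _ _ _ hx ?_
    split_ifs with h
    · exact (Nat.mod_lt _ h).le.trans (hx e)
    · exact Nat.zero_le _
  | emit b s t => exact hx
  | seq p q ihp ihq => exact ihq (ihp hx)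
  | ifp b p q ihp ihq =>
    rw [den]
    split_ifs
    · exact ihp hx
    · exact ihq hx
  | loop t p ih =>
    rw [den]
    generalize x.1 t = n
    induction n generalizing x with
    | zero => exact hx
    | succ n ihn =>
      rw [Function.iterate_succ_apply]
      exact ihn (hu _ _ _ (ih hx) ((Nat.sub_le _ _).trans (hx t)))

/-- A bound of the cost. -/
def Cmd.cb : Cmd ρ α → ℕ → ℕ
  | .skip, _ => 1
  | .clr _, _ => 2
  | .dec _, B => 2 * B + 6
  | .cp _ _, B => 4 * B + 5
  | .sub _ _ _, B => 4 * B + 7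
  | .inc _ _, B => 3 * B + 6
  | .half _ _ _, B => 8 * B + 16
  | .mm _ _ _ _, B => 9 * (B * B) + 4 * B + 10
  | .emit _ _ _, _ => 3
  | .seq p q, B => p.cb B + q.cb B
  | .ifp _ p q, B => 1 + (p.cb B + q.cb B)
  | .loop _ p, B => B * (p.cb B + (2 * B + 6) + 1) + 1

theorem Cmd.cb_poly (p : Cmd ρ α) : ∃ K n : ℕ, ∀ B, p.cb B ≤ K * (B + 1) ^ n := by
  have key : ∀ (B i j : ℕ), i ≤ j → (B + 1) ^ i ≤ (B + 1) ^ j := fun B i j h =>
    Nat.pow_le_pow_right (Nat.succ_pos B) h
  induction p with
  | skip => exact ⟨1, 0, fun B => by simp [cb]⟩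
  | clr b => exact ⟨2, 0, fun B => by simp [cb]⟩
  | dec b => exact ⟨6, 1, fun B => by simp only [cb, pow_one]; omega⟩
  | cp b c => exact ⟨5, 1, fun B => by simp only [cb, pow_one]; omega⟩
  | sub b c e => exact ⟨7, 1, fun B => by simp only [cb, pow_one]; omega⟩
  | inc b c => exact ⟨6, 1, fun B => by simp only [cb, pow_one]; omega⟩
  | half b c e => exact ⟨16, 1, fun B => by simp only [cb, pow_one]; omega⟩
  | mm b c e g => exact ⟨10, 2, fun B => by simp only [cb]; nlinarith⟩
  | emit b s t => exact ⟨3, 0, fun B => by simp [cb]⟩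
  | seq p q ihp ihq =>
    obtain ⟨K, n, h⟩ := ihp
    obtain ⟨K', n', h'⟩ := ihq
    refine ⟨K + K', n + n', fun B => ?_⟩
    have h1 := (h B).trans (Nat.mul_le_mul_left K (key B n (n + n') (by omega)))
    have h2 := (h' B).trans (Nat.mul_le_mul_left K' (key B n' (n + n') (by omega)))
    simp only [cb, add_mul]
    omega
  | ifp b p q ihp ihq =>
    obtain ⟨K, n, h⟩ := ihp
    obtain ⟨K', n', h'⟩ := ihq
    refine ⟨1 + (K + K'), n + n', fun B => ?_⟩
    have h1 := (h B).trans (Nat.mul_le_mul_left K (key B n (n + n') (by omega)))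
    have h2 := (h' B).trans (Nat.mul_le_mul_left K' (key B n' (n + n') (by omega)))
    have h3 : 1 ≤ (B + 1) ^ (n + n') := Nat.one_le_pow _ _ (Nat.succ_pos B)
    simp only [cb, add_mul, one_mul]
    omega
  | loop t p ih =>
    obtain ⟨K, n, h⟩ := ih
    refine ⟨K + 8, n + 2, fun B => ?_⟩
    have h1 := h B
    have h2 : (B + 1) * (B + 1) ≤ (B + 1) ^ (n + 2) := by
      calc (B + 1) * (B + 1) = (B + 1) ^ 2 := by ring
        _ ≤ _ := key B 2 (n + 2) (by omega)
    have h3 : (B + 1) * (K * (B + 1) ^ n) ≤ K * (B + 1) ^ (n + 2) := by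
      calc (B + 1) * (K * (B + 1) ^ n) = K * (B + 1) ^ (n + 1) := by ring
        _ ≤ _ := Nat.mul_le_mul_left K (key B (n + 1) (n + 2) (by omega))
    have h4 : B * (p.cb B) ≤ (B + 1) * (K * (B + 1) ^ n) := Nat.mul_le_mul (by omega) h1
    simp only [cb, add_mul]
    nlinarith

end den

variable {ρ M F α : Type} [DecidableEq F] [DecidableEq ρ] {d u : α} {j : ρ → F} {o : F}

/-- `if a < b then a := a + 1` -/
def incC (a b : F) (u : α) : Prog M F α :=
  .seq (lock a b) (.seq (.ite (fun _ r => (r b).isSome) (put a u) nop)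
    (.seq (op a .rew) (op b .rew)))

theorem tri_incC {a b : F} (hab : a ≠ b) {s : Store M F α} {m n : ℕ} (ha : Len u 0 m (s.z a))
    (hb : Len u 0 n (s.z b)) :
    Tri d (incC a b u) s (3 * m + 6) (fun s' => Len u 0 (if m < n then m + 1 else m) (s'.z a) ∧
      Len u 0 n (s'.z b) ∧ Keep [a, b] s s') := by
  refine (Tri.seq (t' := 5) (tri_lockU hab ha hb) ?_).cost (by omega)
  rintro s1 ⟨h1, h2, k1⟩
  refine (Tri.seq (t := 3) (t' := 2) (Q := fun s' =>
    (∃ i k, i + k = (if m < n then m + 1 else m) ∧ Len u i k (s'.z a)) ∧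
    Len u (0 + min m n) (n - min m n) (s'.z b) ∧ Keep [a, b] s s') ?_ ?_)
  · refine Tri.ite (t := 2) ?_ ?_
    · intro hc
      rw [Store.reads, h2.peek_isSome] at hc
      have hc' : 0 < n - min m n := by simpa using hc
      have e1 : m - min m n = 0 := by omega
      rw [e1] at h1
      refine (tri_put h1).post ?_
      rintro s2 ⟨h3, k2⟩
      refine ⟨⟨_, _, ?_, h3⟩, k2.len (by simp [hab.symm]) h2, k1.trans (k2.mono (by simp))⟩
      rw [if_pos (by omega)]
      omega
    · intro hc
      rw [Store.reads, h2.peek_isSome] at hc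
      have hc' : ¬ 0 < n - min m n := by simpa using hc
      refine ⟨s1, (run_nop s1.m s1.z).mono (by omega), ⟨_, _, ?_, h1⟩, h2, k1⟩
      rw [if_neg (by omega)]
      omega
  · rintro s2 ⟨⟨i, k, hik, h3⟩, h4, k2⟩
    refine Tri.seq (t' := 1) (tri_rew h3) ?_
    rintro s3 ⟨h5, k3⟩
    refine (tri_rew (k3.len (by simp [hab.symm]) h4)).post ?_
    rintro s4 ⟨h6, k4⟩
    refine ⟨?_, ?_, k2.trans ((k3.mono (by simp)).trans (k4.mono (by simp)))⟩
    · rw [← hik]
      exact k4.len (by simp [hab]) h5
    · have e : 0 + min m n + (n - min m n) = n := by omega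
      rw [e] at h6
      exact h6

/-- One step of counting modulo `|m|`. -/
def stepM (m c : F) (u : α) : Prog M F α :=
  .seq (put c u) (.seq (op m .right)
    (.ite (fun _ r => (r m).isSome) nop (.seq (clr c) (op m .rew))))

theorem tri_stepM {m c : F} (hmc : m ≠ c) {s : Store M F α} {k n : ℕ} (hk : k < n)
    (hm : Len u k (n - k) (s.z m)) (hc : Len u k 0 (s.z c)) :
    Tri d (stepM m c u) s 7 (fun s' => Len u ((k + 1) % n) (n - (k + 1) % n) (s'.z m) ∧
      Len u ((k + 1) % n) 0 (s'.z c) ∧ Keep [m, c] s s') := by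
  refine Tri.seq (t' := 5) (tri_put hc) ?_
  rintro s1 ⟨h1, k1⟩
  obtain ⟨r, hr⟩ : ∃ r, n - k = r + 1 := ⟨n - k - 1, by omega⟩
  have hm1 := k1.len (by simp [hmc]) hm
  rw [hr] at hm1
  refine Tri.seq (t' := 4) (tri_right hm1) ?_
  rintro s2 ⟨h2, k2⟩
  have hc2 := k2.len (by simp [hmc.symm]) h1
  have k12 : Keep [m, c] s s2 := (k1.mono (by simp)).trans (k2.mono (by simp))
  refine Tri.ite (t := 3) ?_ ?_
  · intro hcc
    rw [Store.reads, h2.peek_isSome] at hcc
    have hr0 : 0 < r := by simpa using hcc
    have e : (k + 1) % n = k + 1 := Nat.mod_eq_of_lt (by omega)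
    refine ⟨s2, (run_nop s2.m s2.z).mono (by omega), ?_, ?_, k12⟩
    · rw [e, show n - (k + 1) = r by omega]
      exact h2
    · rw [e]
      exact hc2
  · intro hcc
    rw [Store.reads, h2.peek_isSome] at hcc
    have hr0 : r = 0 := by simpa using hcc
    have e : (k + 1) % n = 0 := by
      have : k + 1 = n := by omega
      rw [this, Nat.mod_self]
    refine Tri.seq (t' := 1) (tri_clr c s2) ?_
    rintro s3 ⟨h3, k3⟩
    refine (tri_rew (k3.len (by simp [hmc]) h2)).post ?_
    rintro s4 ⟨h4, k4⟩
    refine ⟨?_, ?_, k12.trans ((k3.mono (by simp)).trans (k4.mono (by simp)))⟩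
    · rw [e, show n - 0 = k + 1 + r by omega]
      exact h4
    · rw [e, k4.z (by simp [hmc.symm]), h3]
      rfl

/-- `c := a * b mod m`, `0` for `m = 0`. -/
def mulM (a b m c : F) (u : α) : Prog M F α :=
  .seq (clr c) (.ite (fun _ r => (r m).isSome)
    (.seq (forU a (forU b (stepM m c u))) (.seq (op m .rew) (op c .rew))) nop)

theorem tri_mulM {a b m c : F} (hab : a ≠ b) (ham : a ≠ m) (hac : a ≠ c) (hbm : b ≠ m)
    (hbc : b ≠ c) (hmc : m ≠ c) {s : Store M F α} {x y n : ℕ} (ha : Len u 0 x (s.z a))
    (hb : Len u 0 y (s.z b)) (hm : Len u 0 n (s.z m)) :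
    Tri d (mulM a b m c u) s (9 * (x * y) + 4 * x + 10) (fun s' =>
      Len u 0 (if 0 < n then x * y % n else 0) (s'.z c) ∧
      Len u 0 x (s'.z a) ∧ Len u 0 y (s'.z b) ∧ Len u 0 n (s'.z m) ∧ Keep [a, b, m, c] s s') := by
  refine (Tri.seq (t' := 9 * (x * y) + 4 * x + 8) (tri_clr c s) ?_).cost (by omega)
  rintro s1 ⟨h1, k1⟩
  have ha1 : Len u 0 x (s1.z a) := k1.len (by simp [hac]) ha
  have hb1 : Len u 0 y (s1.z b) := k1.len (by simp [hbc]) hb
  have hm1 : Len u 0 n (s1.z m) := k1.len (by simp [hmc]) hm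
  have hc1 : Len u 0 0 (s1.z c) := h1
  refine (Tri.ite (t := 9 * (x * y) + 4 * x + 5) ?_ ?_).cost (by omega)
  · intro hcc
    rw [Store.reads, hm1.peek_isSome] at hcc
    have hn : 0 < n := by simpa using hcc
    have hloop := tri_forU (d := d) (f := a) (p := forU b (stepM m c u)) (n := x)
      (fun i s' => Len u (i * y % n) (n - i * y % n) (s'.z m) ∧ Len u (i * y % n) 0 (s'.z c) ∧
        Len u 0 y (s'.z b) ∧ Keep [a, b, m, c] s s')
      (y * (7 + 2) + 2) ?_ ?_ ha1 ⟨by simpa using hm1, by simpa using hc1, hb1, k1.mono (by simp)⟩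
    · refine (Tri.seq (t' := 2) hloop ?_).cost ?_
      · rintro s3 ⟨h3, h4, h5, h6, k3⟩
        refine Tri.seq (t' := 1) (tri_rew h4) ?_
        rintro s4 ⟨h7, k4⟩
        refine (tri_rew (k4.len (by simp [hmc.symm]) h5)).post ?_
        rintro s5 ⟨h8, k5⟩
        have hlt := Nat.mod_lt (x * y) hn
        have e : x * y % n + (n - x * y % n) = n := by omega
        rw [e] at h7
        refine ⟨?_, k5.len (by simp [hac]) (k4.len (by simp [ham]) h3),
          k5.len (by simp [hbc]) (k4.len (by simp [hbm]) h6), k5.len (by simp [hmc]) h7,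
          k3.trans ((k4.mono (by simp)).trans (k5.mono (by simp)))⟩
        rw [if_pos hn]
        simpa using h8
      · nlinarith
    · rintro i s' v ⟨h3, h4, h5, h6⟩
      exact ⟨h3.upd ham.symm v, h4.upd hac.symm v, h5.upd hab.symm v, h6.upd (by simp) v⟩
    · rintro i hi s' - ⟨h3, h4, h5, h6⟩
      have hin := tri_forU (d := d) (f := b) (p := stepM m c u) (n := y)
        (fun k s'' => Len u ((i * y + k) % n) (n - (i * y + k) % n) (s''.z m) ∧
          Len u ((i * y + k) % n) 0 (s''.z c) ∧ Keep [b, m, c] s' s'') 7 ?_ ?_ h5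
        ⟨by simpa using h3, by simpa using h4, Keep.refl _ _⟩
      · refine hin.post ?_
        rintro s'' ⟨h7, h8, h9, k9⟩
        refine ⟨k9.z (by simp [hab, ham, hac]), ?_, ?_, h7, h6.trans (k9.mono (by simp))⟩
        · rw [Nat.add_mul, Nat.one_mul]
          exact h8
        · rw [Nat.add_mul, Nat.one_mul]
          exact h9
      · rintro k s'' v ⟨h7, h8, h9⟩
        exact ⟨h7.upd hbm.symm v, h8.upd hbc.symm v, h9.upd (by simp) v⟩
      · rintro k hk s'' - ⟨h7, h8, h9⟩
        refine (tri_stepM hmc (Nat.mod_lt _ hn) h7 h8).post ?_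
        rintro s3 ⟨h10, h11, k10⟩
        have e : ((i * y + k) % n + 1) % n = (i * y + (k + 1)) % n := by
          rw [Nat.mod_add_mod, Nat.add_assoc]
        rw [e] at h10 h11
        exact ⟨k10.z (by simp [hbm, hbc]), h10, h11, h9.trans (k10.mono (by simp))⟩
  · intro hcc
    rw [Store.reads, hm1.peek_isSome] at hcc
    have hn : ¬ 0 < n := by simpa using hcc
    refine ⟨s1, (run_nop s1.m s1.z).mono (by omega), ?_, ha1, hb1, hm1, k1.mono (by simp)⟩
    rw [if_neg hn]
    exact hc1

/-- The program of a command. -/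
def Cmd.prog (u : α) (j : ρ → F) (o : F) : Cmd ρ α → Prog M F α
  | .skip => nop
  | .clr a => H784.clr (j a)
  | .dec a => decU (j a)
  | .cp a b => cpU (j a) (j b) u
  | .sub a b c => diffU (j a) (j b) (j c) u
  | .inc a b => incC (j a) (j b) u
  | .half a b c => halve (j a) (j b) (j c) u
  | .mm a b m c => mulM (j a) (j b) (j m) (j c) u
  | .emit a s t => .ite (fun _ r => (r (j a)).isSome) (put o s) (put o t)
  | .seq p q => .seq (p.prog u j o) (q.prog u j o)
  | .ifp a p q => .ite (fun _ r => (r (j a)).isSome) (p.prog u j o) (q.prog u j o)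
  | .loop t p => .loop (fun _ r => (r (j t)).isSome) (.seq (p.prog u j o) (decU (j t)))

/-- The store holds the registers and the output. -/
def OK (u : α) (j : ρ → F) (o : F) (x : (ρ → ℕ) × List α) (s : Store M F α) : Prop :=
  RL u j x.1 s ∧ s.z o = ⟨x.2.reverse, []⟩

/-- The program `p` transforms the registers and the output from `x` to `x'`, at a cost of at most
`c`, and leaves the rest of the store unchanged. -/
def RO (d u : α) (j : ρ → F) (o : F) (p : Prog M F α) (x : (ρ → ℕ) × List α) (c : ℕ)
    (x' : (ρ → ℕ) × List α) : Prop :=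
  ∀ s : Store M F α, OK u j o x s → Tri d p s c (fun s' => OK u j o x' s' ∧ s'.m = s.m ∧
    ∀ f, (∀ y, f ≠ j y) → f ≠ o → s'.z f = s.z f)

theorem RO.seq {p q : Prog M F α} {x x' x'' : (ρ → ℕ) × List α} {c c' : ℕ}
    (h : RO d u j o p x c x') (h' : RO d u j o q x' c' x'') :
    RO d u j o (.seq p q) x (c + c') x'' := by
  intro s hs
  refine Tri.seq (h s hs) ?_
  rintro s1 ⟨h1, h2, h3⟩
  refine (h' s1 h1).post ?_
  rintro s2 ⟨h4, h5, h6⟩
  exact ⟨h4, h5.trans h2, fun f hf hf' => (h6 f hf hf').trans (h3 f hf hf')⟩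

theorem RO.cost {p : Prog M F α} {x x' : (ρ → ℕ) × List α} {c c' : ℕ}
    (h : RO d u j o p x c x') (hc : c ≤ c') : RO d u j o p x c' x' :=
  fun s hs => (h s hs).cost hc

/-- From a triple on some rulers. -/
theorem ro_of_tri (hj : Function.Injective j) (ho : ∀ y, j y ≠ o) (S : List ρ)
    {p : Prog M F α} {v v' : ρ → ℕ} {L : List α} {c : ℕ}
    (h : ∀ s : Store M F α, RL u j v s → Tri d p s c (fun s' =>
      (∀ x ∈ S, Len u 0 (v' x) (s'.z (j x))) ∧ Keep (S.map j) s s'))
    (hv : ∀ x, x ∉ S → v' x = v x) : RO d u j o p (v, L) c (v', L) := by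
  intro s hs
  refine (h s hs.1).post ?_
  rintro s' ⟨h1, h2⟩
  refine ⟨⟨fun x => ?_, ?_⟩, h2.1, fun f hf _ => h2.z ?_⟩
  · by_cases hx : x ∈ S
    · exact h1 x hx
    · simp only
      rw [hv x hx]
      exact h2.len (by simpa [hj.eq_iff] using hx) (hs.1 x)
  · rw [h2.z (by simp only [List.mem_map, not_exists, not_and]; exact fun x _ => ho x)]
    exact hs.2
  · simp only [List.mem_map, not_exists, not_and]
    exact fun x _ h => hf x h.symm

theorem tri_decU' {f : F} {s : Store M F α} {n : ℕ} (h : Len u 0 n (s.z f)) :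
    Tri d (decU f) s (2 * n + 6) (fun s' => Len u 0 (n - 1) (s'.z f) ∧ Keep [f] s s') := by
  cases n with
  | succ n => exact (tri_decU h).cost (by omega)
  | zero =>
    refine (Tri.seq (t' := 3) (tri_toEnd h) ?_).cost (by omega)
    rintro s1 ⟨h1, k1⟩
    refine Tri.seq (t' := 2) (tri_op f .left s1) ?_
    rintro s2 ⟨h2, k2⟩
    refine Tri.seq (t' := 1) (tri_op f .trunc s2) ?_
    rintro s3 ⟨h3, k3⟩
    refine (tri_op f .rew s3).post ?_
    rintro s4 ⟨h4, k4⟩
    refine ⟨?_, k1.trans (k2.trans (k3.trans k4))⟩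
    have e1 : s1.z f = ⟨[], []⟩ := h1
    rw [h4, h3, h2, e1]
    rfl

theorem tri_subU {a b c : F} (hab : a ≠ b) (hac : a ≠ c) (hbc : b ≠ c) {s : Store M F α}
    {m n : ℕ} (ha : Len u 0 m (s.z a)) (hb : Len u 0 n (s.z b)) :
    Tri d (diffU a b c u) s (4 * m + 7) (fun s' => Len u 0 (m - n) (s'.z c) ∧
      Len u 0 m (s'.z a) ∧ Len u 0 n (s'.z b) ∧ Keep [a, b, c] s s') := by
  refine (Tri.seq (t' := 4 * m + 5) (tri_clr c s) ?_).cost (by omega)
  rintro s1 ⟨h1, k1⟩
  have ha1 : Len u 0 m (s1.z a) := k1.len (by simp [hac]) ha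
  have hb1 : Len u 0 n (s1.z b) := k1.len (by simp [hbc]) hb
  refine (Tri.seq (t' := 4 * (m - min m n) + 4) (tri_lockU hab ha1 hb1) ?_).cost (by omega)
  rintro s2 ⟨h2, h3, k2⟩
  have hc2 : Len u 0 0 (s2.z c) := k2.len (by simp [hac.symm, hbc.symm]) (by exact h1)
  refine Tri.seq (t' := 3) (tri_mvU hac h2 hc2) ?_
  rintro s3 ⟨h4, h5, k3⟩
  have hb3 : Len u (0 + min m n) (n - min m n) (s3.z b) := k3.len (by simp [hab.symm, hbc]) h3
  refine Tri.seq (t' := 2) (tri_rew h4) ?_
  rintro s4 ⟨h6, k4⟩
  refine Tri.seq (t' := 1) (tri_rew (k4.len (by simp [hab.symm]) hb3)) ?_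
  rintro s5 ⟨h7, k5⟩
  refine (tri_rew (k5.len (by simp [hbc.symm]) (k4.len (by simp [hac.symm]) h5))).post ?_
  rintro s6 ⟨h8, k6⟩
  refine ⟨?_, ?_, ?_, ?_⟩
  · have e : 0 + (m - min m n) + 0 = m - n := by omega
    rw [e] at h8
    exact h8
  · have e : 0 + min m n + (m - min m n) + 0 = m := by omega
    rw [e] at h6
    exact k6.len (by simp [hac]) (k5.len (by simp [hab]) h6)
  · have e : 0 + min m n + (n - min m n) = n := by omega
    rw [e] at h7
    exact k6.len (by simp [hbc]) h7
  · exact (k1.mono (by simp)).trans ((k2.mono (by simp)).trans ((k3.mono (by simp)).trans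
      ((k4.mono (by simp)).trans ((k5.mono (by simp)).trans (k6.mono (by simp))))))

theorem ro_put (ho : ∀ y, j y ≠ o) {v : ρ → ℕ} {L : List α} (a : α) :
    RO (M := M) d u j o (put o a) (v, L) 2 (v, L ++ [a]) := by
  intro s hs
  refine ⟨_, run_put (m := s.m) hs.2, ⟨⟨fun x => ?_, by simp⟩, rfl, fun f _ hf => ?_⟩⟩
  · simp only
    rw [Function.update_of_ne (ho x)]
    exact hs.1 x
  · simp only
    rw [Function.update_of_ne hf]

/-- **The main theorem on commands.** -/
theorem Cmd.run (hj : Function.Injective j) (ho : ∀ y, j y ≠ o) (p : Cmd ρ α) (hp : p.wf) {B : ℕ}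
    {x : (ρ → ℕ) × List α} (hx : ∀ a, x.1 a ≤ B) :
    RO (M := M) d u j o (p.prog u j o) x (p.cb B) (p.den x) := by
  induction p generalizing x with
  | skip => exact fun s hs => ⟨s, run_nop s.m s.z, hs, rfl, fun _ _ _ => rfl⟩
  | clr a =>
    refine ro_of_tri hj ho [a] (fun s hs => ?_) ?_
    · refine (tri_clr (j a) s).post ?_
      rintro s' ⟨h1, h2⟩
      refine ⟨?_, h2⟩
      intro y hy
      simp only [List.mem_cons, List.not_mem_nil, or_false] at hy
      subst hy
      rw [Function.update_self, h1]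
      rfl
    · intro y hy
      simp only [List.mem_cons, List.not_mem_nil, or_false] at hy
      rw [Function.update_of_ne hy]
  | dec a =>
    refine ro_of_tri hj ho [a] (fun s hs => ?_) ?_
    · refine ((tri_decU' (hs a)).cost ?_).post ?_
      · have := hx a
        simp only [cb]
        omega
      rintro s' ⟨h1, h2⟩
      refine ⟨?_, h2⟩
      intro y hy
      simp only [List.mem_cons, List.not_mem_nil, or_false] at hy
      subst hy
      rw [Function.update_self]
      exact h1
    · intro y hy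
      simp only [List.mem_cons, List.not_mem_nil, or_false] at hy
      rw [Function.update_of_ne hy]
  | cp a b =>
    refine ro_of_tri hj ho [a, b] (fun s hs => ?_) ?_
    · refine ((tri_cpU (hj.ne hp) (hs a)).cost ?_).post ?_
      · have := hx a
        simp only [cb]
        omega
      rintro s' ⟨h1, h2, h3⟩
      refine ⟨?_, h3⟩
      intro y hy
      simp only [List.mem_cons, List.not_mem_nil, or_false] at hy
      rcases hy with rfl | rfl
      · rw [Function.update_of_ne hp]
        exact h2
      · rw [Function.update_self]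
        exact h1
    · intro y hy
      simp only [List.mem_cons, List.not_mem_nil, or_false, not_or] at hy
      rw [Function.update_of_ne hy.2]
  | sub a b c =>
    obtain ⟨hab, hac, hbc⟩ := hp
    refine ro_of_tri hj ho [a, b, c] (fun s hs => ?_) ?_
    · refine ((tri_subU (hj.ne hab) (hj.ne hac) (hj.ne hbc) (hs a) (hs b)).cost ?_).post ?_
      · have := hx a
        simp only [cb]
        omega
      rintro s' ⟨h1, h2, h3, h4⟩
      refine ⟨?_, h4⟩
      intro y hy
      simp only [List.mem_cons, List.not_mem_nil, or_false] at hy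
      rcases hy with rfl | rfl | rfl
      · rw [Function.update_of_ne hac]
        exact h2
      · rw [Function.update_of_ne hbc]
        exact h3
      · rw [Function.update_self]
        exact h1
    · intro y hy
      simp only [List.mem_cons, List.not_mem_nil, or_false, not_or] at hy
      rw [Function.update_of_ne hy.2.2]
  | inc a b =>
    refine ro_of_tri hj ho [a, b] (fun s hs => ?_) ?_
    · refine ((tri_incC (hj.ne hp) (hs a) (hs b)).cost ?_).post ?_
      · have := hx a
        simp only [cb]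
        omega
      rintro s' ⟨h1, h2, h3⟩
      refine ⟨?_, h3⟩
      intro y hy
      simp only [List.mem_cons, List.not_mem_nil, or_false] at hy
      rcases hy with rfl | rfl
      · rw [Function.update_self]
        exact h1
      · rw [Function.update_of_ne (Ne.symm hp)]
        exact h2
    · intro y hy
      simp only [List.mem_cons, List.not_mem_nil, or_false, not_or] at hy
      rw [Function.update_of_ne hy.1]
  | half a b c =>
    obtain ⟨hab, hac, hbc⟩ := hp
    refine ro_of_tri hj ho [a, b, c] (fun s hs => ?_) ?_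
    · refine ((tri_halve (hj.ne hab) (hj.ne hac) (hj.ne hbc) (hs a)).cost ?_).post ?_
      · have := hx a
        simp only [cb]
        omega
      rintro s' ⟨h1, h2, h3, h4⟩
      refine ⟨?_, h4⟩
      intro y hy
      simp only [List.mem_cons, List.not_mem_nil, or_false] at hy
      rcases hy with rfl | rfl | rfl
      · rw [Function.update_of_ne hac, Function.update_of_ne hab]
        exact h3
      · rw [Function.update_of_ne hbc, Function.update_self]
        exact h1
      · rw [Function.update_self]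
        exact h2
    · intro y hy
      simp only [List.mem_cons, List.not_mem_nil, or_false, not_or] at hy
      rw [Function.update_of_ne hy.2.2, Function.update_of_ne hy.2.1]
  | mm a b m c =>
    obtain ⟨hab, ham, hac, hbm, hbc, hmc⟩ := hp
    refine ro_of_tri hj ho [a, b, m, c] (fun s hs => ?_) ?_
    · refine ((tri_mulM (hj.ne hab) (hj.ne ham) (hj.ne hac) (hj.ne hbm) (hj.ne hbc) (hj.ne hmc)
        (hs a) (hs b) (hs m)).cost ?_).post ?_
      · have h1 := Nat.mul_le_mul (hx a) (hx b)
        have h2 := hx a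
        simp only [cb]
        omega
      rintro s' ⟨h1, h2, h3, h4, h5⟩
      refine ⟨?_, h5⟩
      intro y hy
      simp only [List.mem_cons, List.not_mem_nil, or_false] at hy
      rcases hy with rfl | rfl | rfl | rfl
      · rw [Function.update_of_ne hac]
        exact h2
      · rw [Function.update_of_ne hbc]
        exact h3
      · rw [Function.update_of_ne hmc]
        exact h4
      · rw [Function.update_self]
        exact h1
    · intro y hy
      simp only [List.mem_cons, List.not_mem_nil, or_false, not_or] at hy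
      rw [Function.update_of_ne hy.2.2.2]
  | emit a y y' =>
    intro s hs
    have hc : (s.reads (j a)).isSome = decide (0 < x.1 a) := (hs.1 a).peek_isSome
    refine (Tri.ite (t := 2) ?_ ?_).cost (by simp [cb])
    · intro h
      have h' : 0 < x.1 a := by simpa using hc.symm.trans h
      have := ro_put (M := M) (d := d) (u := u) ho (v := x.1) (L := x.2) y s hs
      simpa [den, h'] using this
    · intro h
      have h' : ¬ 0 < x.1 a := by simpa using hc.symm.trans h
      have := ro_put (M := M) (d := d) (u := u) ho (v := x.1) (L := x.2) y' s hs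
      simpa only [den, h', if_false] using this
  | seq p q ihp ihq => exact (ihp hp.1 hx).seq (ihq hp.2 (p.den_le hx))
  | ifp a p q ihp ihq =>
    intro s hs
    have hc : (s.reads (j a)).isSome = decide (0 < x.1 a) := (hs.1 a).peek_isSome
    refine Tri.ite ?_ ?_
    · intro h
      have h' : 0 < x.1 a := by simpa using hc.symm.trans h
      simp only [den, h', if_true]
      exact (ihp hp.1 hx s hs).cost (Nat.le_add_right _ _)
    · intro h
      have h' : ¬ 0 < x.1 a := by simpa using hc.symm.trans h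
      simp only [den, h', if_false]
      exact (ihq hp.2 hx s hs).cost (Nat.le_add_left _ _)
  | loop t p ih =>
    obtain ⟨ht, hwf⟩ := hp
    set f : (ρ → ℕ) × List α → (ρ → ℕ) × List α :=
      fun y => (update (p.den y).1 t (y.1 t - 1), (p.den y).2) with hf
    have hft : ∀ n ≤ x.1 t, (f^[n] x).1 t = x.1 t - n := by
      intro n hn
      induction n with
      | zero => simp
      | succ n ihn =>
        rw [Function.iterate_succ_apply']
        simp only [hf, Function.update_self]
        rw [ihn (by omega)]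
        omega
    have hfB : ∀ n, ∀ a, (f^[n] x).1 a ≤ B := by
      intro n
      induction n with
      | zero => exact hx
      | succ n ihn =>
        intro a
        rw [Function.iterate_succ_apply']
        simp only [hf]
        by_cases ha : a = t
        · subst ha
          rw [Function.update_self]
          exact (Nat.sub_le _ _).trans (ihn a)
        · rw [Function.update_of_ne ha]
          exact p.den_le ihn a
    intro s hs
    have hloop := Tri.loop (d := d) (c := fun _ r => (r (j t)).isSome)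
      (p := .seq (p.prog u j o) (decU (j t))) (x.1 t)
      (fun n s' => OK u j o (f^[n] x) s' ∧ s'.m = s.m ∧
        ∀ f, (∀ y, f ≠ j y) → f ≠ o → s'.z f = s.z f) (p.cb B + (2 * B + 6)) ?_ ?_ ?_ (s := s)
      ⟨hs, rfl, fun _ _ _ => rfl⟩
    · refine hloop.cost ?_
      simp only [cb]
      have := hx t
      nlinarith [Nat.mul_le_mul_right (p.cb B + (2 * B + 6) + 1) this]
    · rintro n hn s' ⟨h1, _⟩
      rw [Store.reads, (h1.1 t).peek_isSome, hft n hn.le]
      simp
      omega
    · rintro s' ⟨h1, _⟩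
      rw [Store.reads, (h1.1 t).peek_isSome, hft _ le_rfl]
      simp
    · rintro n hn s1 ⟨h1, h2, h3⟩
      refine Tri.seq (ih hwf (hfB n) s1 h1) ?_
      rintro s2 ⟨h4, h5, h6⟩
      have h7 : (p.den (f^[n] x)).1 t = (f^[n] x).1 t := p.den_of_not_mem ht _
      have hlen := h4.1 t
      rw [h7] at hlen
      refine ((tri_decU' hlen).cost ?_).post ?_
      · have := hfB n t
        omega
      rintro s3 ⟨h8, k8⟩
      refine ⟨⟨fun y => ?_, ?_⟩, k8.1.trans (h5.trans h2), fun g hg hg' => ?_⟩
      · rw [Function.iterate_succ_apply']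
        simp only [hf]
        by_cases hy : y = t
        · subst hy
          rw [Function.update_self]
          exact h8
        · rw [Function.update_of_ne hy]
          exact k8.len (by simpa [hj.eq_iff] using hy) (h4.1 y)
      · rw [k8.z (by simpa using (ho t).symm), Function.iterate_succ_apply']
        exact h4.2
      · rw [k8.z (by simpa using hg t), h6 g hg hg', h3 g hg hg']

end Vale.Agent.P338.R2.H778.Tr
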