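import Mathlib.Algebra.Ring.GeomSum
import Mathlib.Algebra.BigOperators.Intervals
import Mathlib.Data.ZMod.Basic
import Mathlib.NumberTheory.Bertrand
import Mathlib.RingTheory.ZMod.UnitsCyclic
import Mathlib.Tactic

/-!
# P338, stage 3: the number theory of the batch transform

`Prin Q w`: `w` is a principal `Q`-th root of unity in a commutative ring.
-/

namespace P338.H778.Tr

open Finset

/-- principal root of unity -/
structure Prin {R : Type*} [CommRing R] (Q : ℕ) (w : Rˣ) : Prop where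
  pow : w ^ Q = 1
  unit : ∀ i, 0 < i → i < Q → IsUnit ((w : R) ^ i - 1)

section ring

variable {R : Type*} [CommRing R] {Q : ℕ} {w : Rˣ}

theorem Prin.inv (h : Prin Q w) : Prin Q w⁻¹ := by
  refine ⟨by rw [inv_pow, h.pow, inv_one], fun i h0 h1 => ?_⟩
  have := h.unit i h0 h1
  have e : ((w⁻¹ : Rˣ) : R) ^ i - 1 = -((w : R) ^ i - 1) * ((w⁻¹ : Rˣ) : R) ^ i := by
    have : (w : R) ^ i * ((w⁻¹ : Rˣ) : R) ^ i = 1 := by
      rw [← mul_pow]; simp
    linear_combination this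
  rw [e]
  exact (this.neg).mul ((w⁻¹).isUnit.pow i)

theorem Prin.zpow_emod (h : Prin Q w) (n : ℤ) : w ^ n = w ^ (n % Q) := by
  conv_lhs => rw [← Int.emod_add_mul_ediv n Q, zpow_add, zpow_mul, zpow_natCast, h.pow, one_zpow,
    mul_one]

theorem Prin.zpow_eq (h : Prin Q w) {m n : ℤ} (hmn : (Q : ℤ) ∣ m - n) : w ^ m = w ^ n := by
  rw [h.zpow_emod m, h.zpow_emod n, (Int.emod_emod_of_dvd _ (dvd_refl _)).symm,
    Int.emod_emod_of_dvd _ (dvd_refl _), Int.emod_eq_emod_iff_emod_sub_eq_zero.2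
      (Int.emod_eq_zero_of_dvd hmn)]

/-- the geometric sum -/
theorem Prin.geom (h : Prin Q w) (hQ : 0 < Q) (i : ℤ) :
    ∑ k ∈ range Q, ((w ^ (i * k) : Rˣ) : R) = if (Q : ℤ) ∣ i then (Q : R) else 0 := by
  split_ifs with hd
  · have : ∀ k ∈ range Q, ((w ^ (i * k) : Rˣ) : R) = 1 := fun k _ => by
      rw [h.zpow_eq (n := 0) (by simpa using hd.mul_right _)]; simp
    rw [sum_congr rfl this]; simp
  · have hQ' : (0 : ℤ) < Q := by exact_mod_cast hQ
    have h0 : 0 ≤ i % Q := Int.emod_nonneg _ hQ'.ne'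
    obtain ⟨j, hj⟩ := Int.eq_ofNat_of_zero_le h0
    have hj0 : 0 < j := by
      rcases Nat.eq_zero_or_pos j with rfl | h'
      · exact absurd (Int.dvd_of_emod_eq_zero (by simpa using hj)) hd
      · exact h'
    have hjQ : j < Q := by
      have := Int.emod_lt_of_pos i hQ'
      rw [hj] at this; exact_mod_cast this
    have hu := h.unit _ hj0 hjQ
    have e : ∀ k : ℕ, ((w ^ (i * k) : Rˣ) : R) = ((w : R) ^ j) ^ k := fun k => by
      rw [zpow_mul, h.zpow_emod i, hj]; simp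
    have h1 : ((w : R) ^ j - 1) * ∑ k ∈ range Q, ((w ^ (i * k) : Rˣ) : R) = 0 := by
      simp only [e]
      have hw : (w : R) ^ Q = 1 := by
        have := congrArg (fun u : Rˣ => (u : R)) h.pow
        simpa using this
      rw [mul_geom_sum, ← pow_mul, mul_comm, pow_mul, hw, one_pow, sub_self]
    exact (hu.mul_right_eq_zero).1 h1

/-- the transform of length `Q` -/
def ft (Q : ℕ) (w : Rˣ) (x : ℕ → R) (k : ℕ) : R :=
  ∑ i ∈ range Q, x i * ((w ^ ((i : ℤ) * k) : Rˣ) : R)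

/-- binomial coefficient `C(n,2)` for integers -/
def c2 (n : ℤ) : ℤ := n * (n - 1) / 2

theorem two_mul_c2 (n : ℤ) : 2 * c2 n = n * (n - 1) := by
  unfold c2
  refine Int.mul_ediv_cancel' ?_
  rcases Int.even_or_odd n with h | h
  · exact (even_iff_two_dvd.1 h).mul_right _
  · exact (even_iff_two_dvd.1 (h.sub_odd odd_one)).mul_left _

theorem mul_eq_c2 (i k : ℤ) : i * k = c2 k + c2 (i + 1) - c2 (k - i) := by
  have h1 := two_mul_c2 k
  have h2 := two_mul_c2 (i + 1)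
  have h3 := two_mul_c2 (k - i)
  have : 2 * (i * k) = 2 * (c2 k + c2 (i + 1) - c2 (k - i)) := by
    rw [mul_sub, mul_add, h1, h2, h3]; ring
  linarith

/-- Bluestein's chirp: the transform as a convolution with a short kernel.  The block `a` has
`Q` entries, the kernel `m ↦ w ^ (-c2 (m - (Q-1)))` has `2 Q - 1` entries; the value at `k` is
entry `k + Q - 1` of the product. -/
theorem ft_chirp (x : ℕ → R) (k : ℕ) :
    ft Q w x k = ((w ^ (c2 k) : Rˣ) : R) *
      ∑ i ∈ range Q, (x i * ((w ^ (c2 (i + 1)) : Rˣ) : R)) * ((w ^ (-c2 ((k : ℤ) - i)) : Rˣ) : R) := by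
  unfold ft
  rw [mul_sum]
  refine sum_congr rfl fun i _ => ?_
  have : w ^ ((i : ℤ) * k) = w ^ (c2 k) * (w ^ (c2 (i + 1)) * w ^ (-c2 ((k : ℤ) - i))) := by
    rw [← zpow_add, ← zpow_add]
    congr 1
    rw [mul_eq_c2]; ring
  rw [this]
  push_cast
  ring

/-- inversion -/
theorem ft_inv (h : Prin Q w) (hQ : 0 < Q) (x : ℕ → R) {m : ℕ} (hm : m < Q) :
    ft Q w⁻¹ (ft Q w x) m = (Q : R) * x m := by
  unfold ft
  have e : ∀ i ∈ range Q, (∑ t ∈ range Q, x t * ((w ^ ((t : ℤ) * i) : Rˣ) : R)) *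
      ((w⁻¹ ^ ((i : ℤ) * m) : Rˣ) : R)
      = ∑ t ∈ range Q, x t * ((w ^ (((t : ℤ) - m) * i) : Rˣ) : R) := by
    intro i _
    rw [sum_mul]
    refine sum_congr rfl fun t _ => ?_
    rw [mul_assoc]
    congr 1
    rw [inv_zpow', ← Units.val_mul, ← zpow_add]
    congr 2; ring
  rw [sum_congr rfl e, sum_comm]
  simp only [← mul_sum]
  rw [sum_eq_single m]
  · rw [h.geom hQ]; simp [mul_comm]
  · intro t ht htm
    rw [h.geom hQ, if_neg, mul_zero]
    intro hd
    have h1 : |(t : ℤ) - m| < Q := by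
      have := mem_range.1 ht
      rw [abs_lt]; omega
    exact htm (by have := Int.eq_zero_of_abs_lt_dvd hd h1; omega)
  · intro hn; exact absurd (mem_range.2 hm) hn

/-- the convolution theorem: if the convolution of `x` and `y` (supported below `D`,
`2 D ≤ Q + 1`) is `z`, then `z` has transform the product of the transforms. -/
theorem ft_mul {D : ℕ} (hD : 2 * D ≤ Q + 1) (x y : ℕ → R)
    (hx : ∀ i, D ≤ i → x i = 0) (hy : ∀ i, D ≤ i → y i = 0) (k : ℕ) :
    ft Q w (fun n => ∑ p ∈ antidiagonal n, x p.1 * y p.2) k = ft Q w x k * ft Q w y k := by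
  unfold ft
  set f : ℕ × ℕ → R := fun p => x p.1 * y p.2 * ((w ^ (((p.1 + p.2 : ℕ) : ℤ) * k) : Rˣ) : R)
    with hf
  have hR : (∑ i ∈ range Q, x i * ((w ^ ((i : ℤ) * k) : Rˣ) : R)) *
      (∑ i ∈ range Q, y i * ((w ^ ((i : ℤ) * k) : Rˣ) : R)) = ∑ p ∈ range Q ×ˢ range Q, f p := by
    rw [sum_mul_sum, sum_product]
    refine sum_congr rfl fun a _ => sum_congr rfl fun b _ => ?_
    have : w ^ (((a + b : ℕ) : ℤ) * k) = w ^ ((a : ℤ) * k) * w ^ ((b : ℤ) * k) := by
      rw [← zpow_add]; congr 1; push_cast; ring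
    simp only [hf, this, Units.val_mul]
    ring
  rw [hR]
  have hL : ∀ n ∈ range Q, (∑ p ∈ antidiagonal n, x p.1 * y p.2) * ((w ^ ((n : ℤ) * k) : Rˣ) : R)
      = ∑ p ∈ ((range Q ×ˢ range Q).filter (fun p => p.1 + p.2 < Q)).filter
          (fun p => p.1 + p.2 = n), f p := by
    intro n hn
    rw [sum_mul]
    have hn' := mem_range.1 hn
    have hset : ((range Q ×ˢ range Q).filter (fun p => p.1 + p.2 < Q)).filter
          (fun p => p.1 + p.2 = n) = antidiagonal n := by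
      ext p
      simp only [mem_filter, mem_product, mem_range, mem_antidiagonal]
      constructor
      · rintro ⟨_, h⟩; exact h
      · intro h; refine ⟨⟨⟨?_, ?_⟩, ?_⟩, h⟩ <;> omega
    rw [hset]
    refine sum_congr rfl fun p hp => ?_
    simp only [hf, mem_antidiagonal.1 hp]
  rw [sum_congr rfl hL, sum_fiberwise_of_maps_to (g := fun p : ℕ × ℕ => p.1 + p.2)
    (fun p hp => mem_range.2 (mem_filter.1 hp).2)]
  refine sum_subset (filter_subset _ _) fun p _ hp2 => ?_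
  have hp3 : ¬ (p.1 + p.2 < Q) := fun h' => hp2 (mem_filter.2 ⟨by assumption, h'⟩)
  simp only [hf]
  rcases Nat.lt_or_ge p.1 D with h1 | h1
  · rcases Nat.lt_or_ge p.2 D with h2 | h2
    · omega
    · rw [hy _ h2]; ring
  · rw [hx _ h1]; ring

/-- the batch product: transform both, multiply, transform back. -/
theorem ft_batch (h : Prin Q w) (hQ : 0 < Q) {D : ℕ} (hD : 2 * D ≤ Q + 1) (x y : ℕ → R)
    (hx : ∀ i, D ≤ i → x i = 0) (hy : ∀ i, D ≤ i → y i = 0) {m : ℕ} (hm : m < Q) :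
    ft Q w⁻¹ (fun k => ft Q w x k * ft Q w y k) m
      = (Q : R) * ∑ p ∈ antidiagonal m, x p.1 * y p.2 := by
  rw [← ft_inv h hQ (fun n => ∑ p ∈ antidiagonal n, x p.1 * y p.2) hm]
  congr 1
  funext k
  exact (ft_mul hD x y hx hy k).symm

end ring

/-! ### the root: natural numbers -/

/-- `w < q^e` is a root of unity of exact order `q - 1` modulo `q`, also modulo `q ^ e`. -/
structure RootN (q e w : ℕ) : Prop where
  prime : q.Prime
  lt : w < q ^ e
  pow : w ^ (q - 1) % q ^ e = 1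
  ne : ∀ i, 0 < i → i < q - 1 → w ^ i % q ≠ 1

theorem exists_rootN {q : ℕ} (hq : q.Prime) {e : ℕ} (he : 0 < e) :
    ∃ w, RootN q e w := by
  have _ := Fact.mk hq
  obtain ⟨g, hg⟩ := IsCyclic.exists_ofOrder_eq_natCard (α := (ZMod q)ˣ)
  have hcard : Nat.card (ZMod q)ˣ = q - 1 := by
    rw [Nat.card_eq_fintype_card, ZMod.card_units_eq_totient, Nat.totient_prime hq]
  rw [hcard] at hg
  set w0 : ℕ := (g : ZMod q).val with hw0
  have hw0c : ((w0 : ℕ) : ZMod q) = g := by simp [hw0]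
  have hcop : Nat.Coprime w0 q := by
    rw [← ZMod.isUnit_iff_coprime, hw0c]; exact g.isUnit
  have hqe : 1 < q ^ e := Nat.one_lt_pow he.ne' hq.one_lt
  refine ⟨w0 ^ (q ^ (e - 1)) % q ^ e, hq, Nat.mod_lt _ (by omega), ?_, ?_⟩
  · have hphi : q ^ (e - 1) * (q - 1) = Nat.totient (q ^ e) := (Nat.totient_prime_pow hq he).symm
    have h1 : (w0 ^ (q ^ (e - 1)) % q ^ e) ^ (q - 1) ≡ 1 [MOD q ^ e] := by
      refine ((Nat.mod_modEq _ _).pow _).trans ?_
      rw [← pow_mul, hphi]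
      exact Nat.ModEq.pow_totient (hcop.pow_right e)
    have := h1
    unfold Nat.ModEq at this
    rw [this, Nat.mod_eq_of_lt hqe]
  · intro i h0 h1 h2
    have hdvd : q ∣ q ^ e := dvd_pow_self q he.ne'
    have h3 : ((w0 ^ (q ^ (e - 1)) % q ^ e) ^ i : ℕ) ≡ 1 [MOD q] := by
      unfold Nat.ModEq
      rw [h2, Nat.mod_eq_of_lt hq.one_lt]
    have h4 : (w0 ^ (q ^ (e - 1)) % q ^ e) ≡ w0 ^ (q ^ (e - 1)) [MOD q] :=
      (Nat.mod_modEq _ (q ^ e)).of_dvd hdvd
    have h5 : (w0 ^ (q ^ (e - 1))) ^ i ≡ 1 [MOD q] := ((h4.pow i).symm).trans h3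
    have h6 : ((g : ZMod q) ^ (q ^ (e - 1))) ^ i = 1 := by
      have := (ZMod.natCast_eq_natCast_iff _ _ _).2 h5
      push_cast at this
      rwa [hw0c] at this
    have h7 : (g : ZMod q) ^ (q ^ (e - 1)) = g := ZMod.pow_card_pow _
    rw [h7] at h6
    have h8 : g ^ i = 1 := by
      ext; push_cast; exact h6
    have := orderOf_dvd_of_pow_eq_one h8
    rw [hg] at this
    exact absurd (Nat.le_of_dvd h0 this) (by omega)

/-- the unit of `ZMod (q ^ e)` -/
theorem RootN.exists_prin {q e w : ℕ} (h : RootN q e w) (he : 0 < e) :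
    ∃ u : (ZMod (q ^ e))ˣ, (u : ZMod (q ^ e)) = (w : ZMod (q ^ e)) ∧ Prin (q - 1) u := by
  have _ := Fact.mk h.prime
  have hq1 := h.prime.one_lt
  have hqe : 1 < q ^ e := Nat.one_lt_pow he.ne' hq1
  have hp : ((w : ZMod (q ^ e))) ^ (q - 1) = 1 := by
    have : (w ^ (q - 1) : ℕ) ≡ 1 [MOD q ^ e] := by
      unfold Nat.ModEq; rw [h.pow, Nat.mod_eq_of_lt hqe]
    have := (ZMod.natCast_eq_natCast_iff _ _ _).2 this
    push_cast at this; exact this
  rcases Nat.lt_or_ge 1 (q - 1) with hq3 | hq3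
  · have hu : IsUnit (w : ZMod (q ^ e)) := by
      refine IsUnit.of_mul_eq_one ((w : ZMod (q ^ e)) ^ (q - 2)) ?_
      rw [← pow_succ', ← hp]; congr 1; omega
    refine ⟨hu.unit, rfl, ⟨Units.ext (by simpa using hp), fun i h0 h1 => ?_⟩⟩
    rw [IsUnit.unit_spec]
    have hw1 : 1 ≤ w ^ i := by
      refine Nat.one_le_iff_ne_zero.2 fun h0' => ?_
      have hw0 : w = 0 := by
        by_contra hne; exact (pow_ne_zero i hne) h0'
      have := h.pow
      rw [hw0, zero_pow (by omega)] at this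
      simp at this
    have hc : ((w : ZMod (q ^ e)) ^ i - 1) = ((w ^ i - 1 : ℕ) : ZMod (q ^ e)) := by
      rw [Nat.cast_sub hw1]; push_cast; ring
    rw [hc, ZMod.isUnit_iff_coprime]
    refine Nat.Coprime.pow_right e ?_
    rw [Nat.coprime_comm, h.prime.coprime_iff_not_dvd]
    intro hd
    refine h.ne i h0 h1 ?_
    have : w ^ i ≡ 1 [MOD q] := ((Nat.modEq_iff_dvd' hw1).2 hd).symm
    unfold Nat.ModEq at this
    rw [this, Nat.mod_eq_of_lt hq1]
  · have hq2 : q - 1 = 1 := by omega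
    rw [hq2] at hp ⊢
    refine ⟨1, by simpa using hp.symm, ⟨by simp, fun i h0 h1 => by omega⟩⟩

/-- a prime in `(2 D, 4 D]` -/
theorem exists_prime_D {D : ℕ} (hD : 0 < D) : ∃ q, q.Prime ∧ 2 * D < q ∧ q ≤ 4 * D := by
  obtain ⟨p, hp, h1, h2⟩ := Nat.exists_prime_lt_and_le_two_mul (2 * D) (by omega)
  exact ⟨p, hp, h1, by omega⟩

end P338.H778.Tr
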