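import Vale.Agent.P338.R2.H778.Tr.Lang
import Vale.Agent.P338.R2.H778.Tr.Num

/-!
# P338, stage 3: search for the parameters of the batch transform, as commands
-/

namespace Vale.Agent.P338.R2.H778.Tr

open _root_.P338.H778.Tr
open Function (update)

section rule

variable {ρ α : Type} [DecidableEq ρ]

/-- The rule for loops. -/
theorem Cmd.loop_rule {t : ρ} {p : Cmd ρ α} (I : ℕ → (ρ → ℕ) × List α → Prop)
    {x : (ρ → ℕ) × List α} {n : ℕ} (hn : x.1 t = n) (h0 : I 0 x)
    (hstep : ∀ i < n, ∀ y y' : (ρ → ℕ) × List α, I i y → y.1 t = n - i →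
      (∀ r, r ≠ t → y'.1 r = (p.den y).1 r) → y'.2 = (p.den y).2 → I (i + 1) y') :
    I n ((Cmd.loop t p).den x) ∧ ((Cmd.loop t p).den x).1 t = 0 := by
  subst hn
  rw [den]
  set f : (ρ → ℕ) × List α → (ρ → ℕ) × List α :=
    fun y => (update (p.den y).1 t (y.1 t - 1), (p.den y).2) with hf
  have key : ∀ n ≤ x.1 t, I n (f^[n] x) ∧ (f^[n] x).1 t = x.1 t - n := by
    intro n hn
    induction n with
    | zero => exact ⟨h0, by simp⟩
    | succ n ih =>
      obtain ⟨h1, h2⟩ := ih (by omega)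
      rw [Function.iterate_succ_apply']
      refine ⟨?_, ?_⟩
      · exact hstep n (by omega) _ _ h1 h2 (fun r hr => by
          simp only [hf]; rw [Function.update_of_ne hr]) rfl
      · simp only [hf, Function.update_self]
        rw [h2]
        omega
  obtain ⟨h1, h2⟩ := key _ le_rfl
  exact ⟨h1, by rw [h2]; omega⟩

/-- No output. -/
def Cmd.mute : Cmd ρ α → Bool
  | .emit _ _ _ => false
  | .seq p q => p.mute && q.mute
  | .ifp _ p q => p.mute && q.mute
  | .loop _ p => p.mute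
  | _ => true

theorem Cmd.den_snd (p : Cmd ρ α) (hp : p.mute = true) (x : (ρ → ℕ) × List α) :
    (p.den x).2 = x.2 := by
  induction p generalizing x with
  | skip => rfl
  | clr b => rfl
  | dec b => rfl
  | cp b c => rfl
  | sub b c e => rfl
  | inc b c => rfl
  | half b c e => rfl
  | mm b c e g => rfl
  | emit b s t => simp [mute] at hp
  | seq p q ihp ihq =>
    simp only [mute, Bool.and_eq_true] at hp
    rw [den, ihq hp.2, ihp hp.1]
  | ifp b p q ihp ihq =>
    simp only [mute, Bool.and_eq_true] at hp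
    rw [den]
    split_ifs
    · exact ihp hp.1 x
    · exact ihq hp.2 x
  | loop t p ih =>
    rw [den]
    generalize x.1 t = n
    induction n generalizing x with
    | zero => rfl
    | succ n ihn =>
      rw [Function.iterate_succ_apply, ihn]
      exact ih hp x

end rule

/-- The registers. -/
inductive Rg
  | b | D | cap | q | Q | om | m | nu | iv | mum | f | g | t1 | t2 | t3 | P | x | y | z
  deriving DecidableEq

open Rg

variable {α : Type}

/-- Sequences. -/
def sq : List (Cmd Rg α) → Cmd Rg α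
  | [] => .skip
  | [p] => p
  | p :: ps => .seq p (sq ps)

/-- `m := q ^ 4` (modulo `cap`) -/
def mkM : Cmd Rg α := sq [.cp q x, .mm q x cap y, .cp y x, .mm y x cap m]

theorem mkM_den (s : (Rg → ℕ) × List α) (hc : 0 < s.1 cap) :
    ((mkM : Cmd Rg α).den s).1 m = s.1 q ^ 4 % s.1 cap := by
  simp only [mkM, sq, Cmd.den, update, reduceCtorEq, dite_false, dite_true, eq_rec_constant, hc,
    if_true]
  rw [← Nat.mul_mod]
  congr 1; ring

/-- if `y = 1` then `g := 0` -/
def chk : Cmd Rg α := .ifp y (.seq (.dec y) (.ifp y .skip (.clr g))) .skip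

theorem chk_den (s : (Rg → ℕ) × List α) :
    ((chk : Cmd Rg α).den s).1 g = (if s.1 y = 1 then 0 else s.1 g) := by
  simp only [chk, Cmd.den]
  by_cases h0 : 0 < s.1 y
  · rw [if_pos h0]
    by_cases h1 : s.1 y = 1
    · simp [h1, update]
    · have h2 : 0 < s.1 y - 1 := by omega
      simp [h1, update, h2]
  · have h1 : s.1 y = 0 := by omega
    simp [h1]

/-- `P := om * P mod m`, `t3` times -/
def test1 : Cmd Rg α := .loop t3 (.seq (.mm P om m y) (.cp y P))

/-- `P := om * P mod q`, if `P = 1` then `g := 0`, `t3` times -/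
def test2 : Cmd Rg α := .loop t3 (sq [.mm P om q y, .cp y P, chk])

/-- if `P ≠ 1` then `g := 0` -/
def chk' : Cmd Rg α := .ifp P (.seq (.dec P) (.ifp P (.clr g) .skip)) (.clr g)

theorem chk'_den (s : (Rg → ℕ) × List α) :
    ((chk' : Cmd Rg α).den s).1 g = (if s.1 P = 1 then s.1 g else 0) := by
  simp only [chk', Cmd.den]
  by_cases h0 : 0 < s.1 P
  · rw [if_pos h0]
    by_cases h1 : s.1 P = 1
    · simp [h1, update]
    · have h2 : 0 < s.1 P - 1 := by omega
      simp [h1, update, h2]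
  · have h1 : s.1 P = 0 := by omega
    simp [h1, update]

theorem test1_den (s : (Rg → ℕ) × List α) (hm : 1 < s.1 m) (hP : s.1 P = 1) :
    ((test1 : Cmd Rg α).den s).1 P = s.1 om ^ (s.1 t3) % s.1 m := by
  have h := Cmd.loop_rule (p := .seq (.mm P om m y) (.cp y P)) (t := t3) (x := s)
    (fun i s' => s'.1 P = s.1 om ^ i % s.1 m ∧ s'.1 om = s.1 om ∧ s'.1 m = s.1 m)
    rfl ⟨by rw [hP, pow_zero, Nat.mod_eq_of_lt hm], rfl, rfl⟩ ?_
  · exact h.1.1
  · rintro i hi s' s'' ⟨h1, h2, h3⟩ - h4 -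
    rw [h4 _ (by decide), h4 _ (by decide), h4 _ (by decide)]
    simp only [Cmd.den, update, reduceCtorEq, dite_false, dite_true, h1, h2, h3, and_true]
    rw [if_pos (by omega), Nat.mod_mul_mod, pow_succ]

theorem test2_den (s : (Rg → ℕ) × List α) (hq : 1 < s.1 q) (hP : s.1 P = 1) :
    ((test2 : Cmd Rg α).den s).1 g =
      (if ∀ k < s.1 t3, s.1 om ^ (k + 1) % s.1 q ≠ 1 then s.1 g else 0) := by
  have h := Cmd.loop_rule (p := sq [.mm P om q y, .cp y P, chk]) (t := t3) (x := s)
    (fun i s' => s'.1 P = s.1 om ^ i % s.1 q ∧ s'.1 om = s.1 om ∧ s'.1 q = s.1 q ∧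
      s'.1 g = (if ∀ k < i, s.1 om ^ (k + 1) % s.1 q ≠ 1 then s.1 g else 0))
    rfl ⟨by rw [hP, pow_zero, Nat.mod_eq_of_lt hq], rfl, rfl, by simp⟩ ?_
  · exact h.1.2.2.2
  · rintro i hi s' s'' ⟨h1, h2, h3, h4⟩ - h8 -
    rw [h8 _ (by decide), h8 _ (by decide), h8 _ (by decide), h8 _ (by decide)]
    set s1 := (Cmd.seq (.mm P om q y) (.cp y P) : Cmd Rg α).den s' with hs1
    have e1 : s1.1 P = s.1 om ^ (i + 1) % s.1 q := by
      simp only [hs1, Cmd.den, update, dite_true, h1, h2, h3]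
      rw [if_pos (by omega), Nat.mod_mul_mod, pow_succ]
    have e2 : s1.1 y = s.1 om ^ (i + 1) % s.1 q := by
      rw [← e1]; rfl
    have e3 : s1.1 om = s.1 om := h2
    have e4 : s1.1 q = s.1 q := h3
    have e5 : s1.1 g = s'.1 g := rfl
    have e7 : (sq [.mm P om q y, .cp y P, chk] : Cmd Rg α).den s' = (chk : Cmd Rg α).den s1 := rfl
    rw [e7]
    refine ⟨?_, ?_, ?_, ?_⟩
    · rw [Cmd.den_of_not_mem _ (by simp [chk, Cmd.wr]), e1]
    · rw [Cmd.den_of_not_mem _ (by simp [chk, Cmd.wr]), e3]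
    · rw [Cmd.den_of_not_mem _ (by simp [chk, Cmd.wr]), e4]
    · rw [chk_den, e2, e5, h4]
      by_cases h6 : s.1 om ^ (i + 1) % s.1 q = 1
      · rw [if_pos h6, if_neg]
        intro h7
        exact h7 i (Nat.lt_succ_self i) h6
      · rw [if_neg h6]
        have : (∀ k < i, s.1 om ^ (k + 1) % s.1 q ≠ 1) ↔
            (∀ k < i + 1, s.1 om ^ (k + 1) % s.1 q ≠ 1) := by
          constructor
          · intro h7 k hk
            rcases Nat.lt_succ_iff_lt_or_eq.1 hk with h8 | rfl
            · exact h7 k h8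
            · exact h6
          · exact fun h7 k hk => h7 k (by omega)
        simp only [this]

/-- `g := 1` if the test `om ^ Q % m = 1` and `om ^ i % q ≠ 1` for `0 < i < Q` is passed, else
`g := 0` -/
def test : Cmd Rg α := sq [sq [.clr g, .inc g cap, .clr P, .inc P cap, .cp Q t3], test1, chk',
  sq [.clr P, .inc P cap, .cp Q t3, .dec t3], test2]

/-- The test as a proposition. -/
def Tst (q m om Q : ℕ) : Prop := om ^ Q % m = 1 ∧ ∀ k < Q - 1, om ^ (k + 1) % q ≠ 1

instance (q m om Q : ℕ) : Decidable (Tst q m om Q) := by unfold Tst; infer_instance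

theorem test_den (s : (Rg → ℕ) × List α) (hc : 0 < s.1 cap) (hm : 1 < s.1 m) (hq : 1 < s.1 q) :
    ((test : Cmd Rg α).den s).1 g = (if Tst (s.1 q) (s.1 m) (s.1 om) (s.1 Q) then 1 else 0) := by
  have e : (test : Cmd Rg α).den s = (test2 : Cmd Rg α).den
      ((sq [.clr P, .inc P cap, .cp Q t3, .dec t3] : Cmd Rg α).den ((chk' : Cmd Rg α).den
      ((test1 : Cmd Rg α).den
      ((sq [.clr g, .inc g cap, .clr P, .inc P cap, .cp Q t3] : Cmd Rg α).den s)))) := rfl
  rw [e]
  generalize hs1 : (sq [.clr g, .inc g cap, .clr P, .inc P cap, .cp Q t3] : Cmd Rg α).den s = s1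
  have a1 : s1.1 g = 1 := by simp [← hs1, sq, Cmd.den, update, hc]
  have a2 : s1.1 P = 1 := by simp [← hs1, sq, Cmd.den, update, hc]
  have a3 : s1.1 t3 = s.1 Q := by simp [← hs1, sq, Cmd.den, update]
  have a4 : ∀ r, r ≠ g → r ≠ P → r ≠ t3 → s1.1 r = s.1 r := fun r h1 h2 h3 =>
    hs1 ▸ Cmd.den_of_not_mem _ (by simp [sq, Cmd.wr, h1, h2, h3]) s
  have b1 := test1_den s1 (by rw [a4 m (by decide) (by decide) (by decide)]; exact hm) a2
  have b3 : ∀ r, r ≠ t3 → r ≠ y → r ≠ P → ((test1 : Cmd Rg α).den s1).1 r = s1.1 r :=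
    fun r h1 h2 h3 => Cmd.den_of_not_mem _ (by simp [test1, Cmd.wr, h1, h2, h3]) s1
  rw [a3, a4 m (by decide) (by decide) (by decide),
    a4 om (by decide) (by decide) (by decide)] at b1
  generalize (test1 : Cmd Rg α).den s1 = s2 at b1 b3 ⊢
  have c1 := chk'_den s2
  have c3 : ∀ r, r ≠ g → r ≠ P → ((chk' : Cmd Rg α).den s2).1 r = s2.1 r := fun r h1 h2 =>
    Cmd.den_of_not_mem _ (by simp [chk', Cmd.wr, h1, h2]) s2
  generalize (chk' : Cmd Rg α).den s2 = s3 at c1 c3 ⊢
  generalize hs4 : (sq [.clr P, .inc P cap, .cp Q t3, .dec t3] : Cmd Rg α).den s3 = s4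
  have hcap3 : s3.1 cap = s.1 cap := by
    rw [c3 _ (by decide) (by decide), b3 _ (by decide) (by decide) (by decide),
      a4 _ (by decide) (by decide) (by decide)]
  have hQ3 : s3.1 Q = s.1 Q := by
    rw [c3 _ (by decide) (by decide), b3 _ (by decide) (by decide) (by decide),
      a4 _ (by decide) (by decide) (by decide)]
  have d1 : s4.1 P = 1 := by simp [← hs4, sq, Cmd.den, update, hcap3, hc]
  have d2 : s4.1 t3 = s.1 Q - 1 := by simp [← hs4, sq, Cmd.den, update, hQ3]
  have d3 : ∀ r, r ≠ P → r ≠ t3 → s4.1 r = s3.1 r := fun r h1 h2 =>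
    hs4 ▸ Cmd.den_of_not_mem _ (by simp [sq, Cmd.wr, h1, h2]) s3
  have hq4 : s4.1 q = s.1 q := by
    rw [d3 _ (by decide) (by decide), c3 _ (by decide) (by decide),
      b3 _ (by decide) (by decide) (by decide), a4 _ (by decide) (by decide) (by decide)]
  have hom4 : s4.1 om = s.1 om := by
    rw [d3 _ (by decide) (by decide), c3 _ (by decide) (by decide),
      b3 _ (by decide) (by decide) (by decide), a4 _ (by decide) (by decide) (by decide)]
  rw [test2_den s4 (by rw [hq4]; exact hq) d1, d2, hq4, hom4, d3 _ (by decide) (by decide), c1, b1,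
      b3 _ (by decide) (by decide) (by decide), a1]
  unfold Tst
  by_cases h1 : s.1 om ^ s.1 Q % s.1 m = 1
  · simp [h1]
  · simp [h1]

end Vale.Agent.P338.R2.H778.Tr
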