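import Vale.Agent.P338.R2.H778.Tr.Srch

/-!
# P338, stage 3: search for the parameters of the batch transform, as commands, part 2
-/

namespace Vale.Agent.P338.R2.H778.Tr

open _root_.P338.H778.Tr
open Function (update)
open Rg

variable {α : Type}

/-- Search for the least `v < m` passing the test `T` (result of `T` in `g`, flag `f`). -/
def find (v : Rg) (T : Cmd Rg α) : Cmd Rg α :=
  sq [.clr v, .cp m t2, .loop t2 (.ifp f .skip (.seq T (.ifp g (.inc f cap) (.inc v cap))))]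

theorem find_den {v : Rg} {T : Cmd Rg α} (hv : v ≠ f ∧ v ≠ g ∧ v ≠ t2 ∧ v ≠ m ∧ v ≠ cap)
    (hT : v ∉ T.wr ∧ f ∉ T.wr ∧ t2 ∉ T.wr ∧ m ∉ T.wr ∧ cap ∉ T.wr) (Pr : ℕ → Prop)
    [DecidablePred Pr] (s : (Rg → ℕ) × List α) (hf : s.1 f = 0) (hc : 0 < s.1 cap)
    (hmc : s.1 m ≤ s.1 cap)
    (hPr : ∀ s' : (Rg → ℕ) × List α, (∀ r, r ∉ (find v T).wr → s'.1 r = s.1 r) →
      (T.den s').1 g = if Pr (s'.1 v) then 1 else 0) :
    (((find v T).den s).1 f = 1 ∧ ((find v T).den s).1 v < s.1 m ∧ Pr (((find v T).den s).1 v)) ∨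
    (((find v T).den s).1 f = 0 ∧ ∀ w < s.1 m, ¬ Pr w) := by
  obtain ⟨v1, v2, v3, v4, v5⟩ := hv
  obtain ⟨w1, w2, w3, w4, w5⟩ := hT
  have e : (find v T).den s = (Cmd.loop t2 (.ifp f .skip (.seq T
      (.ifp g (.inc f cap) (.inc v cap)))) : Cmd Rg α).den
      ((Cmd.seq (.clr v) (.cp m t2) : Cmd Rg α).den s) := rfl
  rw [e]
  generalize hs1 : (Cmd.seq (.clr v) (.cp m t2) : Cmd Rg α).den s = s1
  have a1 : s1.1 v = 0 := by
    rw [← hs1]; simp [Cmd.den, update, v3]
  have a2 : s1.1 t2 = s.1 m := by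
    rw [← hs1]; simp [Cmd.den, update, Ne.symm v4]
  have a3 : ∀ r, r ≠ v → r ≠ t2 → s1.1 r = s.1 r := fun r h1 h2 => by
    rw [← hs1]; exact Cmd.den_of_not_mem _ (by simp [Cmd.wr, h1, h2]) s
  have hsub : ∀ r, r ∉ (find v T).wr → r ≠ v ∧ r ≠ t2 ∧ r ∉ T.wr ∧ r ≠ f := by
    intro r hr
    simp only [find, sq, Cmd.wr, List.mem_append, List.mem_cons, List.not_mem_nil, or_false,
      not_or] at hr
    tauto
  have h := Cmd.loop_rule (p := .ifp f .skip (.seq T (.ifp g (.inc f cap) (.inc v cap))))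
    (t := t2) (x := s1)
    (fun i s' => (∀ r, r ∉ (find v T).wr → s'.1 r = s.1 r) ∧ s'.1 m = s.1 m ∧
      s'.1 cap = s.1 cap ∧
      ((s'.1 f = 1 ∧ s'.1 v < s.1 m ∧ Pr (s'.1 v)) ∨
      (s'.1 f = 0 ∧ s'.1 v = i ∧ ∀ w < i, ¬ Pr w))) a2 ?_ ?_
  · obtain ⟨⟨-, -, -, h1⟩, -⟩ := h
    rcases h1 with h1 | ⟨h1, h2, h3⟩
    · exact Or.inl h1
    · exact Or.inr ⟨h1, h3⟩
  · refine ⟨fun r hr => a3 r (hsub r hr).1 (hsub r hr).2.1, a3 _ (Ne.symm v4) (by decide),
      a3 _ (Ne.symm v5) (by decide), Or.inr ⟨?_, a1, ?_⟩⟩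
    · rw [a3 _ (Ne.symm v1) (by decide), hf]
    · intro w hw; omega
  · rintro i hi s' s'' ⟨b1, b2, b3, b4⟩ - b5 -
    rw [b5 _ (by decide), b5 _ (by decide), b5 _ (by decide), b5 _ v3]
    have b6 : ∀ r, r ∉ (find v T).wr → s''.1 r =
        ((Cmd.ifp f .skip (.seq T (.ifp g (.inc f cap) (.inc v cap))) : Cmd Rg α).den s').1 r :=
      fun r hr => b5 r (hsub r hr).2.1
    have b7 : ∀ r, r ∉ (find v T).wr → s''.1 r = s.1 r := by
      intro r hr
      obtain ⟨c1, c2, c3, c4⟩ := hsub r hr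
      rw [b6 r hr, Cmd.den_of_not_mem _ (by simp [Cmd.wr, c1, c3, c4]), b1 r hr]
    refine ⟨b7, ?_, ?_, ?_⟩
    · rw [Cmd.den_of_not_mem _ (by simp [Cmd.wr, w4, Ne.symm v4]), b2]
    · rw [Cmd.den_of_not_mem _ (by simp [Cmd.wr, w5, Ne.symm v5]), b3]
    · rcases b4 with ⟨c1, c2, c3⟩ | ⟨c1, c2, c3⟩
      · refine Or.inl ?_
        have : (Cmd.ifp f .skip (.seq T (.ifp g (.inc f cap) (.inc v cap))) : Cmd Rg α).den s'
            = s' := by
          rw [Cmd.den, if_pos (by omega)]; rfl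
        rw [this]
        exact ⟨c1, c2, c3⟩
      · have e1 : (Cmd.ifp f .skip (.seq T (.ifp g (.inc f cap) (.inc v cap))) :
            Cmd Rg α).den s' = (Cmd.ifp g (.inc f cap) (.inc v cap) : Cmd Rg α).den (T.den s') := by
          rw [Cmd.den, if_neg (by omega)]; rfl
        rw [e1]
        have e2 := hPr s' b1
        have e3 := Cmd.den_of_not_mem T w1 s'
        have e4 := Cmd.den_of_not_mem T w2 s'
        have e5 := Cmd.den_of_not_mem T w5 s'
        generalize T.den s' = s3 at e2 e3 e4 e5 ⊢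
        rw [c2] at e2 e3
        rw [c1] at e4
        rw [b3] at e5
        by_cases hP : Pr i
        · refine Or.inl ?_
          rw [if_pos hP] at e2
          have e6 : (Cmd.ifp g (.inc f cap) (.inc v cap) : Cmd Rg α).den s3
              = (update s3.1 f 1, s3.2) := by
            rw [Cmd.den, if_pos (by omega), Cmd.den, if_pos (by omega), e4]
          rw [e6]
          refine ⟨by simp only [Function.update_self], ?_, ?_⟩
          · simp only
            rw [Function.update_of_ne v1, e3]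
            exact hi
          · simp only
            rw [Function.update_of_ne v1, e3]
            exact hP
        · refine Or.inr ?_
          rw [if_neg hP] at e2
          have e6 : (Cmd.ifp g (.inc f cap) (.inc v cap) : Cmd Rg α).den s3
              = (update s3.1 v (i + 1), s3.2) := by
            rw [Cmd.den, if_neg (by omega), Cmd.den, if_pos (by omega), e3]
          rw [e6]
          refine ⟨?_, by simp only [Function.update_self], ?_⟩
          · simp only
            rw [Function.update_of_ne (Ne.symm v1), e4]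
          · intro w hw
            rcases Nat.lt_succ_iff_lt_or_eq.1 hw with h8 | rfl
            · exact c3 w h8
            · exact hP

/-- `g := 1` if `a * v mod m = 1`, else `g := 0` -/
def testI (a v : Rg) : Cmd Rg α :=
  sq [.clr g, .mm a v m y, .ifp y (.seq (.dec y) (.ifp y .skip (.inc g cap))) .skip]

theorem testI_den {a v : Rg} (ha : a ≠ g ∧ a ≠ y) (hv : v ≠ g ∧ v ≠ y)
    (s : (Rg → ℕ) × List α) (hc : 0 < s.1 cap) (hm : 0 < s.1 m) :
    ((testI a v : Cmd Rg α).den s).1 g = (if s.1 a * s.1 v % s.1 m = 1 then 1 else 0) := by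
  have e : (testI a v : Cmd Rg α).den s = (Cmd.ifp y (.seq (.dec y) (.ifp y .skip (.inc g cap)))
      .skip : Cmd Rg α).den ((Cmd.seq (.clr g) (.mm a v m y) : Cmd Rg α).den s) := rfl
  rw [e]
  generalize hs1 : (Cmd.seq (.clr g) (.mm a v m y) : Cmd Rg α).den s = s1
  have a1 : s1.1 y = s.1 a * s.1 v % s.1 m := by
    rw [← hs1]; simp [Cmd.den, update, ha.1, hv.1, hm]
  have a2 : s1.1 g = 0 := by rw [← hs1]; simp [Cmd.den, update]
  have a3 : s1.1 cap = s.1 cap := by
    rw [← hs1]; exact Cmd.den_of_not_mem _ (by simp [Cmd.wr]) s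
  rw [Cmd.den, a1]
  by_cases h0 : 0 < s.1 a * s.1 v % s.1 m
  · rw [if_pos h0]
    by_cases h1 : s.1 a * s.1 v % s.1 m = 1
    · simp [Cmd.den, h1, update, a1, a2, a3, hc]
    · have h2 : 0 < s.1 a * s.1 v % s.1 m - 1 := by omega
      simp [Cmd.den, h1, update, a1, a2, h2]
  · have h1 : s.1 a * s.1 v % s.1 m = 0 := by omega
    simp [Cmd.den, h1, a2]

end Vale.Agent.P338.R2.H778.Tr
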