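import Vale.Agent.P338.R2.H778.Tr.Srch2

/-!
# P338, stage 3: search for the parameters of the batch transform, as commands, part 3
-/

namespace Vale.Agent.P338.R2.H778.Tr

open _root_.P338.H778.Tr
open Function (update)
open Rg

set_option linter.unusedSimpArgs false

variable {α : Type}

/-- One value of `q`. -/
def bodyQ : Cmd Rg α := sq [.inc q cap, mkM, .cp q Q, .dec Q, find om test]

/-- Search for `q` and `om`. -/
def srchQ : Cmd Rg α := sq [
  sq [.clr q, .cp D t1], .loop t1 (.seq (.inc q cap) (.inc q cap)),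
  sq [.clr f, .cp q t1], .loop t1 (.ifp f .skip bodyQ)]

theorem bodyQ_den (s : (Rg → ℕ) × List α) (hf : s.1 f = 0) (hq : 1 ≤ s.1 q)
    (hc : (s.1 q + 1) ^ 4 < s.1 cap) :
    ((bodyQ : Cmd Rg α).den s).1 q = s.1 q + 1 ∧ ((bodyQ : Cmd Rg α).den s).1 Q = s.1 q ∧
    ((bodyQ : Cmd Rg α).den s).1 m = (s.1 q + 1) ^ 4 ∧
    ((((bodyQ : Cmd Rg α).den s).1 f = 1 ∧ ((bodyQ : Cmd Rg α).den s).1 om < (s.1 q + 1) ^ 4 ∧
      Tst (s.1 q + 1) ((s.1 q + 1) ^ 4) (((bodyQ : Cmd Rg α).den s).1 om) (s.1 q)) ∨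
    (((bodyQ : Cmd Rg α).den s).1 f = 0 ∧
      ∀ w < (s.1 q + 1) ^ 4, ¬ Tst (s.1 q + 1) ((s.1 q + 1) ^ 4) w (s.1 q))) := by
  have hqc : s.1 q + 1 < s.1 cap := lt_of_le_of_lt (Nat.le_self_pow (by norm_num) _) hc
  have e : (bodyQ : Cmd Rg α).den s = (find om test : Cmd Rg α).den
      ((Cmd.seq (.cp q Q) (.dec Q) : Cmd Rg α).den ((mkM : Cmd Rg α).den
      ((Cmd.inc q cap : Cmd Rg α).den s))) := rfl
  rw [e]
  generalize hs1 : (Cmd.inc q cap : Cmd Rg α).den s = s1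
  have a1 : s1.1 q = s.1 q + 1 := by
    rw [← hs1]; simp [Cmd.den, show s.1 q < s.1 cap by omega]
  have a2 : ∀ r, r ≠ q → s1.1 r = s.1 r := fun r h1 => by
    rw [← hs1]; exact Cmd.den_of_not_mem _ (by simp [Cmd.wr, h1]) s
  have b1 := mkM_den s1 (by rw [a2 _ (by decide)]; omega)
  have b2 : ∀ r, r ≠ x → r ≠ y → r ≠ m → ((mkM : Cmd Rg α).den s1).1 r = s1.1 r :=
    fun r h1 h2 h3 => Cmd.den_of_not_mem _ (by simp [mkM, sq, Cmd.wr, h1, h2, h3]) s1
  rw [a1, a2 _ (by decide), Nat.mod_eq_of_lt hc] at b1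
  generalize (mkM : Cmd Rg α).den s1 = s2 at b1 b2 ⊢
  generalize hs3 : (Cmd.seq (.cp q Q) (.dec Q) : Cmd Rg α).den s2 = s3
  have c1 : s3.1 Q = s.1 q := by
    rw [← hs3]
    simp [Cmd.den, update, b2 q (by decide) (by decide) (by decide), a1]
  have c2 : ∀ r, r ≠ Q → s3.1 r = s2.1 r := fun r h1 => by
    rw [← hs3]; exact Cmd.den_of_not_mem _ (by simp [Cmd.wr, h1]) s2
  have c3 : s3.1 q = s.1 q + 1 := by
    rw [c2 _ (by decide), b2 q (by decide) (by decide) (by decide), a1]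
  have c4 : s3.1 m = (s.1 q + 1) ^ 4 := by rw [c2 _ (by decide), b1]
  have c5 : s3.1 cap = s.1 cap := by
    rw [c2 _ (by decide), b2 _ (by decide) (by decide) (by decide), a2 _ (by decide)]
  have c6 : s3.1 f = 0 := by
    rw [c2 _ (by decide), b2 _ (by decide) (by decide) (by decide), a2 _ (by decide), hf]
  have hm1 : 1 < (s.1 q + 1) ^ 4 := Nat.one_lt_pow (by norm_num) (by omega)
  have h := find_den (v := om) (T := (test : Cmd Rg α)) (by decide)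
    (by simp [bodyQ, find, test, test1, test2, chk, chk', mkM, sq, Cmd.wr])
    (fun w => Tst (s.1 q + 1) ((s.1 q + 1) ^ 4) w (s.1 q)) s3 c6 (by rw [c5]; omega)
    (by rw [c4, c5]; exact hc.le) ?_
  · refine ⟨?_, ?_, ?_, ?_⟩
    · rw [Cmd.den_of_not_mem _ (by simp [bodyQ, find, test, test1, test2, chk, chk', mkM, sq, Cmd.wr]), c3]
    · rw [Cmd.den_of_not_mem _ (by simp [bodyQ, find, test, test1, test2, chk, chk', mkM, sq, Cmd.wr]), c1]
    · rw [Cmd.den_of_not_mem _ (by simp [bodyQ, find, test, test1, test2, chk, chk', mkM, sq, Cmd.wr]), c4]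
    · rw [c4] at h
      exact h
  · intro s' hs'
    have d1 : s'.1 cap = s.1 cap := by rw [hs' _ (by simp [bodyQ, find, test, test1, test2, chk, chk', mkM, sq, Cmd.wr]), c5]
    have d2 : s'.1 m = (s.1 q + 1) ^ 4 := by rw [hs' _ (by simp [bodyQ, find, test, test1, test2, chk, chk', mkM, sq, Cmd.wr]), c4]
    have d3 : s'.1 q = s.1 q + 1 := by rw [hs' _ (by simp [bodyQ, find, test, test1, test2, chk, chk', mkM, sq, Cmd.wr]), c3]
    have d4 : s'.1 Q = s.1 q := by rw [hs' _ (by simp [bodyQ, find, test, test1, test2, chk, chk', mkM, sq, Cmd.wr]), c1]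
    rw [test_den s' (by rw [d1]; omega) (by rw [d2]; exact hm1) (by rw [d3]; omega), d2, d3, d4]

/-- The test is the definition of the root. -/
theorem tst_of_root {q w : ℕ} (h : RootN q 4 w) : Tst q (q ^ 4) w (q - 1) :=
  ⟨h.pow, fun k hk => h.ne (k + 1) (by omega) (by omega)⟩

/-- The test is passed only for primes. -/
theorem root_of_tst {q w : ℕ} (hq : 3 ≤ q) (hw : w < q ^ 4) (h : Tst q (q ^ 4) w (q - 1)) :
    RootN q 4 w := by
  obtain ⟨h1, h2⟩ := h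
  have hne : ∀ i, 0 < i → i < q - 1 → w ^ i % q ≠ 1 := by
    intro i hi hi'
    have := h2 (i - 1) (by omega)
    rwa [Nat.sub_add_cancel (by omega)] at this
  refine ⟨?_, hw, h1, hne⟩
  have hq1 : 1 < q := by omega
  have h3 : (w : ZMod q) ^ (q - 1) = 1 := by
    have h4 : w ^ (q - 1) ≡ 1 [MOD q ^ 4] := by
      unfold Nat.ModEq
      rw [h1, Nat.mod_eq_of_lt (Nat.one_lt_pow (by norm_num) hq1)]
    have h5 := h4.of_dvd (dvd_pow_self q (by norm_num : (4 : ℕ) ≠ 0))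
    have := (ZMod.natCast_eq_natCast_iff _ _ _).2 h5
    push_cast at this
    exact this
  refine lucas_primality q (w : ZMod q) h3 fun p hp hpd h6 => ?_
  have hlt : (q - 1) / p < q - 1 := Nat.div_lt_self (by omega) hp.one_lt
  have hpos : 0 < (q - 1) / p := Nat.div_pos (Nat.le_of_dvd (by omega) hpd) hp.pos
  refine hne _ hpos hlt ?_
  have h7 : w ^ ((q - 1) / p) ≡ 1 [MOD q] := by
    rw [← ZMod.natCast_eq_natCast_iff]
    push_cast
    exact h6
  unfold Nat.ModEq at h7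
  rw [h7, Nat.mod_eq_of_lt hq1]

/-- **The search for `q` and `om`.** -/
theorem srchQ_den (s : (Rg → ℕ) × List α) (hD : 1 ≤ s.1 D) (hc : (4 * s.1 D) ^ 4 < s.1 cap) :
    ∃ q' w, RootN q' 4 w ∧ 2 * s.1 D < q' ∧ q' ≤ 4 * s.1 D ∧
      ((srchQ : Cmd Rg α).den s).1 q = q' ∧ ((srchQ : Cmd Rg α).den s).1 Q = q' - 1 ∧
      ((srchQ : Cmd Rg α).den s).1 m = q' ^ 4 ∧ ((srchQ : Cmd Rg α).den s).1 om = w := by
  have hDc : 4 * s.1 D < s.1 cap := lt_of_le_of_lt (Nat.le_self_pow (by norm_num) _) hc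
  have e : (srchQ : Cmd Rg α).den s = (Cmd.loop t1 (.ifp f .skip bodyQ) : Cmd Rg α).den
      ((Cmd.seq (.clr f) (.cp q t1) : Cmd Rg α).den
      ((Cmd.loop t1 (.seq (.inc q cap) (.inc q cap)) : Cmd Rg α).den
      ((Cmd.seq (.clr q) (.cp D t1) : Cmd Rg α).den s))) := rfl
  rw [e]
  generalize hs1 : (Cmd.seq (.clr q) (.cp D t1) : Cmd Rg α).den s = s1
  have a1 : s1.1 q = 0 := by rw [← hs1]; simp [Cmd.den, update]
  have a2 : s1.1 t1 = s.1 D := by rw [← hs1]; simp [Cmd.den, update]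
  have a3 : ∀ r, r ≠ q → r ≠ t1 → s1.1 r = s.1 r := fun r h1 h2 => by
    rw [← hs1]; exact Cmd.den_of_not_mem _ (by simp [Cmd.wr, h1, h2]) s
  have b0 := Cmd.loop_rule (p := (.seq (.inc q cap) (.inc q cap) : Cmd Rg α)) (t := t1) (x := s1)
    (fun i s' => s'.1 q = 2 * i ∧ s'.1 cap = s.1 cap) a2 ⟨a1, a3 _ (by decide) (by decide)⟩ ?_
  swap
  · rintro i hi s' s'' ⟨h1, h2⟩ - h4 -
    rw [h4 _ (by decide), h4 _ (by decide)]
    have h5 : (2 * i) < s.1 cap := by omega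
    have h6 : (2 * i + 1) < s.1 cap := by omega
    simp [Cmd.den, update, h1, h2, h5, h6]
    omega
  have b1 := b0.1.1
  have b2 : ∀ r, r ≠ q → r ≠ t1 →
      ((Cmd.loop t1 (.seq (.inc q cap) (.inc q cap)) : Cmd Rg α).den s1).1 r = s1.1 r :=
    fun r h1 h2 => Cmd.den_of_not_mem _ (by simp [Cmd.wr, h1, h2]) s1
  generalize (Cmd.loop t1 (.seq (.inc q cap) (.inc q cap)) : Cmd Rg α).den s1 = s2 at b1 b2 ⊢
  generalize hs3 : (Cmd.seq (.clr f) (.cp q t1) : Cmd Rg α).den s2 = s3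
  have c1 : s3.1 q = 2 * s.1 D := by rw [← hs3]; simp [Cmd.den, update, b1]
  have c2 : s3.1 t1 = 2 * s.1 D := by rw [← hs3]; simp [Cmd.den, update, b1]
  have c3 : s3.1 f = 0 := by rw [← hs3]; simp [Cmd.den, update]
  have c4 : s3.1 cap = s.1 cap := by
    rw [← hs3, Cmd.den_of_not_mem _ (by simp [Cmd.wr]), b2 _ (by decide) (by decide),
      a3 _ (by decide) (by decide)]
  have h := Cmd.loop_rule (p := (.ifp f .skip bodyQ : Cmd Rg α)) (t := t1) (x := s3)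
    (fun i s' => s'.1 cap = s.1 cap ∧
      ((s'.1 f = 1 ∧ 2 * s.1 D < s'.1 q ∧ s'.1 q ≤ 2 * s.1 D + i ∧ s'.1 Q = s'.1 q - 1 ∧
        s'.1 m = s'.1 q ^ 4 ∧ s'.1 om < s'.1 q ^ 4 ∧ Tst (s'.1 q) (s'.1 q ^ 4) (s'.1 om) (s'.1 q - 1)) ∨
      (s'.1 f = 0 ∧ s'.1 q = 2 * s.1 D + i ∧ ∀ q', 2 * s.1 D < q' → q' ≤ 2 * s.1 D + i →
        ∀ w < q' ^ 4, ¬ Tst q' (q' ^ 4) w (q' - 1)))) c2
    ⟨c4, Or.inr ⟨c3, c1, fun q' h1 h2 => by omega⟩⟩ ?_
  · obtain ⟨⟨-, h1⟩, -⟩ := h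
    rcases h1 with ⟨h1, h2, h3, h4, h5, h6, h7⟩ | ⟨h1, h2, h3⟩
    · exact ⟨_, _, root_of_tst (by omega) h6 h7, h2, by omega, rfl, h4, h5, rfl⟩
    · exfalso
      obtain ⟨q', hq', g1, g2⟩ := exists_prime_D (D := s.1 D) (by omega)
      obtain ⟨w, hw⟩ := exists_rootN hq' (e := 4) (by norm_num)
      exact h3 q' g1 (by omega) w hw.lt (tst_of_root hw)
  · rintro i hi s' s'' ⟨h1, h2⟩ - h4 -
    rw [h4 _ (by decide), h4 _ (by decide), h4 _ (by decide), h4 _ (by decide), h4 _ (by decide),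
      h4 _ (by decide)]
    rcases h2 with ⟨h2, h3⟩ | ⟨h2, h3, h5⟩
    · have : (Cmd.ifp f .skip bodyQ : Cmd Rg α).den s' = s' := by
        rw [Cmd.den, if_pos (by omega)]; rfl
      rw [this]
      refine ⟨h1, Or.inl ⟨h2, h3.1, by omega, h3.2.2⟩⟩
    · have : (Cmd.ifp f .skip bodyQ : Cmd Rg α).den s' = (bodyQ : Cmd Rg α).den s' := by
        rw [Cmd.den, if_neg (by omega)]
      rw [this]
      have hle : (s'.1 q + 1) ^ 4 < s'.1 cap := by
        rw [h1]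
        exact lt_of_le_of_lt (Nat.pow_le_pow_left (by omega) 4) hc
      obtain ⟨g1, g2, g3, g4⟩ := bodyQ_den s' h2 (by omega) hle
      refine ⟨by rw [Cmd.den_of_not_mem _ (by simp [bodyQ, find, test, test1, test2, chk, chk', mkM, sq, Cmd.wr]), h1], ?_⟩
      rw [g1, g2, g3]
      rcases g4 with ⟨g4, g5, g6⟩ | ⟨g4, g5⟩
      · exact Or.inl ⟨g4, by omega, by omega, by omega, rfl, g5, by
          rw [Nat.add_sub_cancel]; exact g6⟩
      · refine Or.inr ⟨g4, by omega, ?_⟩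
        intro q' k1 k2 w hw
        rcases Nat.lt_or_ge q' (2 * s.1 D + (i + 1)) with k3 | k3
        · exact h5 q' k1 (by omega) w hw
        · have k4 : q' = s'.1 q + 1 := by omega
          subst k4
          rw [Nat.add_sub_cancel]
          exact g5 w hw

end Vale.Agent.P338.R2.H778.Tr
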