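import Vale.Agent.P338.R2.H778.Tr.Srch3
import Vale.Agent.P338.R2.H784.Bp.Spec

/-!
# P338, stage 3: search for the parameters of the batch transform, as commands, part 4
-/

namespace Vale.Agent.P338.R2.H778.Tr

open _root_.P338.H778.Tr
open Function (update)
open Vale.Agent.P338.R2.H784.Bp
open Rg

set_option linter.unusedSimpArgs false

variable {α : Type}

/-- Inverses. -/
def srchI : Cmd Rg α := sq [.clr f, find nu (testI om nu), .clr f, find iv (testI Q iv)]

theorem exists_nu {q w : ℕ} (h : RootN q 4 w) : ∃ v < q ^ 4, w * v % q ^ 4 = 1 := by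
  have hq := h.prime.one_lt
  have hm : 1 < q ^ 4 := Nat.one_lt_pow (by norm_num) hq
  refine ⟨w ^ (q - 2) % q ^ 4, Nat.mod_lt _ (by omega), ?_⟩
  rw [Nat.mul_mod_mod]
  rcases Nat.lt_or_ge 2 q with h2 | h2
  · rw [← pow_succ', show q - 2 + 1 = q - 1 by omega]
    exact h.pow
  · have h3 : q = 2 := by omega
    subst h3
    have := h.pow
    simpa using this

theorem exists_iv {q : ℕ} (hq : q.Prime) : ∃ v < q ^ 4, (q - 1) * v % q ^ 4 = 1 := by
  have hm : 1 < q ^ 4 := Nat.one_lt_pow (by norm_num) hq.one_lt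
  have hcop : Nat.Coprime (q - 1) (q ^ 4) := by
    refine Nat.Coprime.pow_right 4 ?_
    rw [Nat.coprime_comm, hq.coprime_iff_not_dvd]
    intro h
    have := Nat.le_of_dvd (by have := hq.one_lt; omega) h
    have := hq.one_lt
    omega
  obtain ⟨v, hv⟩ := Nat.exists_mul_mod_eq_one_of_coprime hcop hm
  refine ⟨v % q ^ 4, Nat.mod_lt _ (by omega), ?_⟩
  rw [Nat.mul_mod_mod]
  exact hv.2

theorem srchI_den (s : (Rg → ℕ) × List α) {q' w : ℕ} (h : RootN q' 4 w)
    (h2 : s.1 Q = q' - 1) (h3 : s.1 m = q' ^ 4) (h4 : s.1 om = w) (hc : q' ^ 4 < s.1 cap) :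
    ((srchI : Cmd Rg α).den s).1 nu < q' ^ 4 ∧
    w * ((srchI : Cmd Rg α).den s).1 nu % q' ^ 4 = 1 ∧
    ((srchI : Cmd Rg α).den s).1 iv < q' ^ 4 ∧
    (q' - 1) * ((srchI : Cmd Rg α).den s).1 iv % q' ^ 4 = 1 := by
  have hm : 1 < q' ^ 4 := Nat.one_lt_pow (by norm_num) h.prime.one_lt
  have e : (srchI : Cmd Rg α).den s = (find iv (testI Q iv) : Cmd Rg α).den
      ((Cmd.clr f : Cmd Rg α).den ((find nu (testI om nu) : Cmd Rg α).den
      ((Cmd.clr f : Cmd Rg α).den s))) := rfl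
  rw [e]
  generalize hs1 : (Cmd.clr f : Cmd Rg α).den s = s1
  have a1 : s1.1 f = 0 := by rw [← hs1]; simp [Cmd.den]
  have a2 : ∀ r, r ≠ f → s1.1 r = s.1 r := fun r h1 => by
    rw [← hs1]; exact Cmd.den_of_not_mem _ (by simp [Cmd.wr, h1]) s
  have b1 := find_den (v := nu) (T := (testI om nu : Cmd Rg α)) (by decide)
    (by simp [testI, sq, Cmd.wr]) (fun v => w * v % q' ^ 4 = 1) s1 a1
    (by rw [a2 _ (by decide)]; omega)
    (by rw [a2 _ (by decide), a2 _ (by decide), h3]; exact hc.le) (fun s' hs' => by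
      have d1 : s'.1 cap = s.1 cap := by
        rw [hs' _ (by simp [find, testI, sq, Cmd.wr]), a2 _ (by decide)]
      have d2 : s'.1 m = q' ^ 4 := by
        rw [hs' _ (by simp [find, testI, sq, Cmd.wr]), a2 _ (by decide), h3]
      have d3 : s'.1 om = w := by
        rw [hs' _ (by simp [find, testI, sq, Cmd.wr]), a2 _ (by decide), h4]
      rw [testI_den (by decide) (by decide) s' (by rw [d1]; omega) (by rw [d2]; omega), d2, d3])
  have b2 : ∀ r, r ∉ (find nu (testI om nu) : Cmd Rg α).wr →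
      ((find nu (testI om nu) : Cmd Rg α).den s1).1 r = s1.1 r := fun r hr =>
    Cmd.den_of_not_mem _ hr s1
  generalize (find nu (testI om nu) : Cmd Rg α).den s1 = s2 at b1 b2 ⊢
  have b3 : s2.1 nu < q' ^ 4 ∧ w * s2.1 nu % q' ^ 4 = 1 := by
    rw [a2 _ (by decide), h3] at b1
    rcases b1 with ⟨-, g1, g2⟩ | ⟨-, g1⟩
    · exact ⟨g1, g2⟩
    · obtain ⟨v, hv, hv'⟩ := exists_nu h
      exact absurd hv' (g1 v hv)
  generalize hs3 : (Cmd.clr f : Cmd Rg α).den s2 = s3
  have c1 : s3.1 f = 0 := by rw [← hs3]; simp [Cmd.den]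
  have c2 : ∀ r, r ≠ f → s3.1 r = s2.1 r := fun r h1 => by
    rw [← hs3]; exact Cmd.den_of_not_mem _ (by simp [Cmd.wr, h1]) s2
  have c3 : s3.1 cap = s.1 cap := by
    rw [c2 _ (by decide), b2 _ (by simp [find, testI, sq, Cmd.wr]), a2 _ (by decide)]
  have c4 : s3.1 m = q' ^ 4 := by
    rw [c2 _ (by decide), b2 _ (by simp [find, testI, sq, Cmd.wr]), a2 _ (by decide), h3]
  have c5 : s3.1 Q = q' - 1 := by
    rw [c2 _ (by decide), b2 _ (by simp [find, testI, sq, Cmd.wr]), a2 _ (by decide), h2]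
  have d1 := find_den (v := iv) (T := (testI Q iv : Cmd Rg α)) (by decide)
    (by simp [testI, sq, Cmd.wr]) (fun v => (q' - 1) * v % q' ^ 4 = 1) s3 c1
    (by rw [c3]; omega)
    (by rw [c3, c4]; exact hc.le) (fun s' hs' => by
      have d1 : s'.1 cap = s.1 cap := by
        rw [hs' _ (by simp [find, testI, sq, Cmd.wr]), c3]
      have d2 : s'.1 m = q' ^ 4 := by
        rw [hs' _ (by simp [find, testI, sq, Cmd.wr]), c4]
      have d3 : s'.1 Q = q' - 1 := by
        rw [hs' _ (by simp [find, testI, sq, Cmd.wr]), c5]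
      rw [testI_den (by decide) (by decide) s' (by rw [d1]; omega) (by rw [d2]; omega), d2, d3])
  refine ⟨?_, ?_, ?_⟩
  · rw [Cmd.den_of_not_mem _ (by simp [find, testI, sq, Cmd.wr]), c2 _ (by decide)]
    exact b3.1
  · rw [Cmd.den_of_not_mem _ (by simp [find, testI, sq, Cmd.wr]), c2 _ (by decide)]
    exact b3.2
  · rw [c4] at d1
    rcases d1 with ⟨-, g1, g2⟩ | ⟨-, g1⟩
    · exact ⟨g1, g2⟩
    · obtain ⟨v, hv, hv'⟩ := exists_iv h.prime
      exact absurd hv' (g1 v hv)

/-- `mum := cap / m + 1` -/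
def mkMu : Cmd Rg α := sq [sq [.clr mum, .inc mum cap, .cp cap x, .cp cap t2],
  .loop t2 (.seq (.sub m x y) (.ifp y .skip (sq [.sub x m y, .cp y x, .inc mum cap])))]

theorem mkMu_den (s : (Rg → ℕ) × List α) (hm : 1 < s.1 m) (hc : s.1 m < s.1 cap) :
    ((mkMu : Cmd Rg α).den s).1 mum = s.1 cap / s.1 m + 1 := by
  have e : (mkMu : Cmd Rg α).den s = (Cmd.loop t2 (.seq (.sub m x y) (.ifp y .skip
      (sq [.sub x m y, .cp y x, .inc mum cap]))) : Cmd Rg α).den
      ((sq [.clr mum, .inc mum cap, .cp cap x, .cp cap t2] : Cmd Rg α).den s) := rfl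
  rw [e]
  generalize hs1 : (sq [.clr mum, .inc mum cap, .cp cap x, .cp cap t2] : Cmd Rg α).den s = s1
  have hc0 : 0 < s.1 cap := by omega
  have a1 : s1.1 mum = 1 := by rw [← hs1]; simp [sq, Cmd.den, update, hc0]
  have a2 : s1.1 x = s.1 cap := by rw [← hs1]; simp [sq, Cmd.den, update]
  have a3 : s1.1 t2 = s.1 cap := by rw [← hs1]; simp [sq, Cmd.den, update]
  have a4 : s1.1 cap = s.1 cap := by
    rw [← hs1]; exact Cmd.den_of_not_mem _ (by simp [sq, Cmd.wr]) s
  have a5 : s1.1 m = s.1 m := by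
    rw [← hs1]; exact Cmd.den_of_not_mem _ (by simp [sq, Cmd.wr]) s
  have h := Cmd.loop_rule (p := (.seq (.sub m x y) (.ifp y .skip
      (sq [.sub x m y, .cp y x, .inc mum cap])) : Cmd Rg α)) (t := t2) (x := s1)
    (fun i s' => s'.1 cap = s.1 cap ∧ s'.1 m = s.1 m ∧ 1 ≤ s'.1 mum ∧
      s'.1 x + s.1 m * (s'.1 mum - 1) = s.1 cap ∧ (s'.1 x < s.1 m ∨ s'.1 mum = i + 1)) a3
    ⟨a4, a5, by omega, by rw [a2, a1]; simp, Or.inr a1⟩ ?_
  · obtain ⟨⟨-, -, h1, h2, h3⟩, -⟩ := h
    generalize ((Cmd.loop t2 (.seq (.sub m x y) (.ifp y .skip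
      (sq [.sub x m y, .cp y x, .inc mum cap]))) : Cmd Rg α).den s1) = s2 at h1 h2 h3 ⊢
    have h4 : s2.1 x < s.1 m := by
      rcases h3 with h3 | h3
      · exact h3
      · exfalso
        rw [h3, Nat.add_sub_cancel] at h2
        nlinarith
    have h5 : s.1 cap / s.1 m = s2.1 mum - 1 := by
      rw [← h2, Nat.add_mul_div_left _ _ (by omega), Nat.div_eq_of_lt h4, zero_add]
    omega
  · rintro i hi s' s'' ⟨h1, h2, h3, h4, h5⟩ - h6 -
    rw [h6 _ (by decide), h6 _ (by decide), h6 _ (by decide), h6 _ (by decide)]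
    have e1 : (Cmd.seq (.sub m x y) (.ifp y .skip (sq [.sub x m y, .cp y x, .inc mum cap])) :
        Cmd Rg α).den s' = (Cmd.ifp y .skip (sq [.sub x m y, .cp y x, .inc mum cap]) :
        Cmd Rg α).den (update s'.1 y (s.1 m - s'.1 x), s'.2) := by
      rw [← h2]; rfl
    rw [e1]
    by_cases h7 : s'.1 x < s.1 m
    · have h8 : 0 < s.1 m - s'.1 x := by omega
      simp only [Cmd.den, Function.update_self, h8, if_true]
      simp only [update, reduceCtorEq, dite_false]
      exact ⟨h1, h2, h3, h4, Or.inl h7⟩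
    · have h8 : ¬ 0 < s.1 m - s'.1 x := by omega
      have h9 : s'.1 mum = i + 1 := h5.resolve_left h7
      have h10 : s'.1 mum < s.1 cap := by nlinarith [Nat.sub_add_cancel h3]
      simp only [sq, Cmd.den, Function.update_self, h8, if_false]
      simp only [update, reduceCtorEq, dite_false, dite_true, h1, h2, h10, if_true, true_and]
      obtain ⟨k, hk⟩ : ∃ k, s'.1 mum = k + 1 := ⟨_, h9⟩
      rw [hk] at h4 h9 ⊢
      simp only [Nat.add_sub_cancel] at h4 ⊢
      refine ⟨by omega, ?_, Or.inr (by omega)⟩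
      rw [Nat.mul_add]
      omega

/-- Write the word of `v`. -/
def emitW (v : Rg) (o i : α) : Cmd Rg α := sq [sq [.cp v x, .cp cap P, .cp b t1],
  .loop t1 (sq [sq [.half P y z, .cp z P, .sub P x y], .emit y o i,
    .ifp y .skip (.seq (.sub x P y) (.cp y x))])]

open Vale.Agent.P338.R2.H778 (bits) in
theorem emitW_den {v : Rg} (bit : Bool → α) (s : (Rg → ℕ) × List α)
    (hc : s.1 cap = 2 ^ s.1 b) (hvb : s.1 v < 2 ^ s.1 b) :
    ((emitW v (bit false) (bit true)).den s).2 = s.2 ++ (bits (s.1 b) (s.1 v)).map bit := by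
  have e : (emitW v (bit false) (bit true)).den s = (Cmd.loop t1 (sq [
      sq [.half P y z, .cp z P, .sub P x y], .emit y (bit false) (bit true),
      .ifp y .skip (.seq (.sub x P y) (.cp y x))])).den
      ((sq [.cp v x, .cp cap P, .cp b t1] : Cmd Rg α).den s) := rfl
  rw [e]
  generalize hs1 : (sq [.cp v x, .cp cap P, .cp b t1] : Cmd Rg α).den s = s1
  have a1 : s1.1 x = s.1 v := by rw [← hs1]; simp [sq, Cmd.den, update]
  have a2 : s1.1 P = 2 ^ s.1 b := by rw [← hs1, ← hc]; simp [sq, Cmd.den, update]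
  have a3 : s1.1 t1 = s.1 b := by rw [← hs1]; simp [sq, Cmd.den, update]
  have a4 : s1.2 = s.2 := by rw [← hs1]; rfl
  have h := Cmd.loop_rule (p := (sq [
      sq [.half P y z, .cp z P, .sub P x y], .emit y (bit false) (bit true),
      .ifp y .skip (.seq (.sub x P y) (.cp y x))])) (t := t1) (x := s1)
    (fun i s' => s'.1 P = 2 ^ (s.1 b - i) ∧ s'.1 x = s.1 v % 2 ^ (s.1 b - i) ∧
      s'.2 = s.2 ++ (bits i (s.1 v / 2 ^ (s.1 b - i))).map bit) a3
    ⟨by simpa using a2, by rw [a1, Nat.sub_zero, Nat.mod_eq_of_lt hvb], by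
      rw [a4]; simp [bits]⟩ ?_
  · obtain ⟨⟨-, -, h1⟩, -⟩ := h
    rw [h1]
    simp
  · rintro i hi s' s'' ⟨h1, h2, h3⟩ - h4 h5
    rw [h4 _ (by decide), h4 _ (by decide), h5]
    obtain ⟨k, hk⟩ : ∃ k, s.1 b - i = k + 1 := ⟨s.1 b - i - 1, by omega⟩
    have hk' : s.1 b - (i + 1) = k := by omega
    rw [hk] at h1 h2 h3
    rw [hk']
    have e1 : (sq [sq [.half P y z, .cp z P, .sub P x y], .emit y (bit false) (bit true),
        .ifp y .skip (.seq (.sub x P y) (.cp y x))] : Cmd Rg α).den s' =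
        (Cmd.ifp y .skip (.seq (.sub x P y) (.cp y x))).den
        ((Cmd.emit y (bit false) (bit true)).den
        ((sq [.half P y z, .cp z P, .sub P x y] : Cmd Rg α).den s')) := rfl
    rw [e1]
    generalize hs2 : (sq [.half P y z, .cp z P, .sub P x y] : Cmd Rg α).den s' = s2
    have hP2 : 2 ^ (k + 1) / 2 = 2 ^ k := by rw [pow_succ]; simp
    have c1 : s2.1 P = 2 ^ k := by rw [← hs2]; simp [sq, Cmd.den, update, h1, hP2]
    have c2 : s2.1 x = s.1 v % 2 ^ (k + 1) := by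
      rw [← hs2, ← h2]; exact Cmd.den_of_not_mem _ (by simp [sq, Cmd.wr]) s'
    have c3 : s2.1 y = 2 ^ k - s.1 v % 2 ^ (k + 1) := by
      rw [← hs2]; simp [sq, Cmd.den, update, h1, h2, hP2]
    have c4 : s2.2 = s'.2 := by rw [← hs2]; rfl
    have key : s.1 v % 2 ^ (k + 1) = 2 ^ k * (s.1 v / 2 ^ k % 2) + s.1 v % 2 ^ k := by
      rw [pow_succ, Nat.mod_mul]; ring
    have hlt : s.1 v % 2 ^ k < 2 ^ k := Nat.mod_lt _ (by positivity)
    have e2 : s.1 v / 2 ^ k / 2 = s.1 v / 2 ^ (k + 1) := by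
      rw [Nat.div_div_eq_div_mul, pow_succ]
    rcases Nat.mod_two_eq_zero_or_one (s.1 v / 2 ^ k) with hb | hb
    · rw [hb, mul_zero, zero_add] at key
      have hy : 0 < s2.1 y := by rw [c3]; omega
      have e3 : (Cmd.emit y (bit false) (bit true)).den s2 = (s2.1, s2.2 ++ [bit false]) := by
        simp only [Cmd.den, hy, if_true]
      rw [e3]
      have e4 : (Cmd.ifp y .skip (.seq (.sub x P y) (.cp y x))).den (s2.1, s2.2 ++ [bit false])
          = (s2.1, s2.2 ++ [bit false]) := by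
        simp only [Cmd.den, hy, if_true]
      rw [e4]
      refine ⟨c1, by rw [c2, key], ?_⟩
      simp only
      rw [c4, h3, bits, e2, hb]
      simp
    · rw [hb, mul_one] at key
      have hy : ¬ 0 < s2.1 y := by rw [c3]; omega
      have e3 : (Cmd.emit y (bit false) (bit true)).den s2 = (s2.1, s2.2 ++ [bit true]) := by
        simp only [Cmd.den, hy, if_false]
      rw [e3]
      have e4 : (Cmd.ifp y .skip (.seq (.sub x P y) (.cp y x))).den (s2.1, s2.2 ++ [bit true])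
          = (update (update s2.1 y (s2.1 x - s2.1 P)) x (s2.1 x - s2.1 P),
            s2.2 ++ [bit true]) := by
        simp only [Cmd.den, hy, if_false, Function.update_self]
      rw [e4]
      refine ⟨?_, ?_, ?_⟩
      · simp only [update, reduceCtorEq, dite_false]
        exact c1
      · simp only [Function.update_self]
        rw [c1, c2, key]
        omega
      · simp only
        rw [c4, h3, bits, e2, hb]
        simp

end Vale.Agent.P338.R2.H778.Tr
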